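import Vale.Agent.P280.R2.H730.Gen

/-! P280: the grading of a graded algebra by the characters of an automorphism, modulo torsion. -/

open DirectSum Module Vale.Agent.P280.R2.H730

namespace Vale.Agent.P280.H63

variable {R : Type} [CommRing R] [Algebra ℂ R] {r : ℕ}

/-- The part of degree `d` and weight `m`. -/
noncomputable def BR (𝒜 : ℕ → Submodule ℂ R) (f : R →ₐ[ℂ] R) (W : ℂˣ → Fin r → ℚ)
    (i : ℕ × (Fin r → ℤ)) : Submodule ℂ R :=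
  ⨆ u : ℂˣ, ⨆ _ : ∀ j, W u j = i.2 j, V 𝒜 f (i.1, u)

variable {𝒜 : ℕ → Submodule ℂ R} [GradedAlgebra 𝒜] {f : R →ₐ[ℂ] R} {W : ℂˣ → Fin r → ℚ}

theorem BR_indep : iSupIndep (BR 𝒜 f W) := by
  intro i
  have h1 := (V_indep (𝒜 := 𝒜) (f := f)).disjoint_biSup_biSup
    (s := {j : ℕ × ℂˣ | j.1 = i.1 ∧ ∀ k, W j.2 k = i.2 k})
    (t := {j : ℕ × ℂˣ | j.1 = i.1 ∧ ∀ k, W j.2 k = i.2 k}ᶜ) disjoint_compl_right
  refine h1.mono ?_ ?_
  · refine iSup₂_le fun u hu => ?_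
    exact le_biSup (V 𝒜 f) (i := (i.1, u)) ⟨rfl, hu⟩
  · refine iSup₂_le fun j hj => iSup₂_le fun u hu => ?_
    refine le_biSup (V 𝒜 f) (i := (j.1, u)) ?_
    rintro ⟨h2, h3⟩
    refine hj (Prod.ext h2 (funext fun k => ?_))
    have h4 : (j.2 k : ℚ) = i.2 k := by rw [← hu k, ← h3 k]
    exact_mod_cast h4

theorem BR_mul (hW : ∀ u w, W (u * w) = W u + W w) {i j : ℕ × (Fin r → ℤ)} {a b : R}
    (ha : a ∈ BR 𝒜 f W i) (hb : b ∈ BR 𝒜 f W j) : a * b ∈ BR 𝒜 f W (i + j) := by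
  have h1 : BR 𝒜 f W i * BR 𝒜 f W j ≤ BR 𝒜 f W (i + j) := by
    unfold BR
    simp only [Submodule.iSup_mul, Submodule.mul_iSup]
    refine iSup₂_le fun u hu => iSup₂_le fun w hw => ?_
    rw [Submodule.mul_le]
    intro a ha b hb
    refine Submodule.mem_iSup_of_mem (w * u) (Submodule.mem_iSup_of_mem (fun k => ?_)
      (V_mul ha hb))
    rw [hW, Pi.add_apply, hu, hw, Prod.snd_add, Pi.add_apply, Int.cast_add, add_comm]
  exact h1 (Submodule.mul_mem_mul ha hb)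

theorem BR_one (hW1 : W 1 = 0) : (1 : R) ∈ BR 𝒜 f W 0 := by
  refine Submodule.mem_iSup_of_mem 1 (Submodule.mem_iSup_of_mem (by simp [hW1]) ?_)
  refine Submodule.mem_inf.2 ⟨SetLike.one_mem_graded 𝒜, ?_⟩
  rw [End.mem_maxGenEigenspace]
  exact ⟨1, by simp⟩

omit [GradedAlgebra 𝒜] in
theorem BR_le (i : ℕ × (Fin r → ℤ)) : BR 𝒜 f W i ≤ 𝒜 i.1 :=
  iSup₂_le fun _ _ => inf_le_left

theorem BR_top (hW : ∀ u w, W (u * w) = W u + W w) (hW1 : W 1 = 0)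
    (hgen : Algebra.adjoin ℂ {h : R | h ∈ 𝒜 1} = ⊤)
    (h1 : 𝒜 1 ≤ ⨆ m : Fin r → ℤ, BR 𝒜 f W (1, m)) :
    iSup (BR 𝒜 f W) = ⊤ := by
  have hone : (1 : R) ∈ iSup (BR 𝒜 f W) := Submodule.mem_iSup_of_mem 0 (BR_one hW1)
  have hmul : ∀ x y, x ∈ iSup (BR 𝒜 f W) → y ∈ iSup (BR 𝒜 f W) → x * y ∈ iSup (BR 𝒜 f W) := by
    have : iSup (BR 𝒜 f W) * iSup (BR 𝒜 f W) ≤ iSup (BR 𝒜 f W) := by
      rw [Submodule.iSup_mul]
      refine iSup_le fun i => ?_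
      rw [Submodule.mul_iSup]
      refine iSup_le fun j => ?_
      rw [Submodule.mul_le]
      intro a ha b hb
      exact Submodule.mem_iSup_of_mem (i + j) (BR_mul hW ha hb)
    exact fun x y hx hy => this (Submodule.mul_mem_mul hx hy)
  have hle : Algebra.adjoin ℂ {h : R | h ∈ 𝒜 1} ≤ (iSup (BR 𝒜 f W)).toSubalgebra hone hmul := by
    refine Algebra.adjoin_le fun h hh => ?_
    change h ∈ iSup (BR 𝒜 f W)
    have h2 : (⨆ m : Fin r → ℤ, BR 𝒜 f W (1, m)) ≤ iSup (BR 𝒜 f W) :=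
      iSup_le fun m => le_iSup (BR 𝒜 f W) (1, m)
    exact h2 (h1 hh)
  rw [hgen] at hle
  rw [eq_top_iff]
  intro x _
  exact hle Algebra.mem_top

theorem exists_gradedR (hW : ∀ u w, W (u * w) = W u + W w) (hW1 : W 1 = 0)
    (hgen : Algebra.adjoin ℂ {h : R | h ∈ 𝒜 1} = ⊤)
    (h1 : 𝒜 1 ≤ ⨆ m : Fin r → ℤ, BR 𝒜 f W (1, m)) :
    Nonempty (GradedAlgebra (BR 𝒜 f W)) := by
  have hi : DirectSum.IsInternal (BR 𝒜 f W) :=
    DirectSum.isInternal_submodule_of_iSupIndep_of_iSup_eq_top BR_indep (BR_top hW hW1 hgen h1)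
  have hm : SetLike.GradedMonoid (BR 𝒜 f W) :=
    { one_mem := BR_one hW1
      mul_mem := fun _ _ _ _ ha hb => BR_mul hW ha hb }
  letI hd : DirectSum.Decomposition (BR 𝒜 f W) := hi.chooseDecomposition
  exact ⟨{ hm, hd with }⟩

theorem le_iSup_BR (htop : iSup (BR 𝒜 f W) = ⊤) (d : ℕ) :
    𝒜 d ≤ ⨆ m : Fin r → ℤ, BR 𝒜 f W (d, m) := by
  intro x hx
  have key : iSup (BR 𝒜 f W) ≤
      (⨆ m : Fin r → ℤ, BR 𝒜 f W (d, m)).comap (GradedAlgebra.proj 𝒜 d) := by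
    refine iSup_le ?_
    rintro ⟨e, m⟩ y hy
    rw [Submodule.mem_comap, GradedAlgebra.proj_apply]
    by_cases hed : e = d
    · subst hed
      rw [decompose_of_mem_same 𝒜 (BR_le (e, m) hy)]
      exact Submodule.mem_iSup_of_mem m hy
    · rw [decompose_of_mem_ne 𝒜 (BR_le (e, m) hy) hed]
      exact Submodule.zero_mem _
  have h5 := key (htop ▸ Submodule.mem_top : x ∈ iSup (BR 𝒜 f W))
  rwa [Submodule.mem_comap, GradedAlgebra.proj_apply, decompose_of_mem_same 𝒜 hx] at h5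

end Vale.Agent.P280.H63
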