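import Mathlib

/-! P280: the characters of the group generated by finitely many units. -/

namespace Vale.Agent.P280.H63

theorem exists_wtR (E : Finset ℂˣ) :
    ∃ (r : ℕ) (W : ℂˣ → Fin r → ℚ) (y : Fin r → ℝ), (∀ x z, W (x * z) = W x + W z) ∧ W 1 = 0 ∧
      (∀ x ∈ E, ∃ m : Fin r → ℤ, ∀ i, W x i = m i) ∧
      (∀ x ∈ Subgroup.closure (E : Set ℂˣ), W x = 0 → ∃ n : ℕ, 0 < n ∧ x ^ n = 1) ∧
      ∀ x ∈ E, Real.log ‖(x : ℂ)‖ = ∑ i, y i * (W x i : ℝ) := by
  have hb : Module.Baer ℤ ℚ := Module.Baer.of_divisible ℚ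
  let Λ : Submodule ℤ (Additive ℂˣ) := Submodule.span ℤ (Additive.ofMul '' (E : Set ℂˣ))
  have hfinΛ : Module.Finite ℤ Λ :=
    Module.Finite.span_of_finite ℤ (E.finite_toSet.image Additive.ofMul)
  let Q := Λ ⧸ Submodule.torsion ℤ Λ
  have hfree : Module.Free ℤ Q := inferInstance
  let bs := Module.finBasis ℤ Q
  let r := Module.finrank ℤ Q
  let φ : Λ →ₗ[ℤ] (Fin r → ℤ) := bs.equivFun.toLinearMap.comp (Submodule.torsion ℤ Λ).mkQ
  have hφsurj : Function.Surjective φ := by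
    intro z
    obtain ⟨x, hx⟩ := Submodule.mkQ_surjective _ (bs.equivFun.symm z)
    refine ⟨x, ?_⟩
    change bs.equivFun ((Submodule.torsion ℤ Λ).mkQ x) = z
    rw [hx, LinearEquiv.apply_symm_apply]
  have hφker : ∀ x, φ x = 0 → ∃ n : ℕ, 0 < n ∧ n • x = 0 := by
    intro x hx
    have h1 : bs.equivFun ((Submodule.torsion ℤ Λ).mkQ x) = 0 := hx
    rw [LinearEquiv.map_eq_zero_iff, Submodule.mkQ_apply, Submodule.Quotient.mk_eq_zero,
      Submodule.mem_torsion_iff] at h1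
    obtain ⟨a, ha⟩ := h1
    have ha0 : (a : ℤ) ≠ 0 := nonZeroDivisors.coe_ne_zero a
    refine ⟨(a : ℤ).natAbs, Int.natAbs_pos.2 ha0, ?_⟩
    have h2 : (a : ℤ) • x = 0 := ha
    rcases Int.natAbs_eq (a : ℤ) with h | h
    · rw [h, natCast_zsmul] at h2
      exact h2
    · rw [h, neg_smul, natCast_zsmul, neg_eq_zero] at h2
      exact h2
  have hext : ∀ i : Fin r, ∃ h : Additive ℂˣ →+ ℚ, ∀ x : Λ, h (x : Additive ℂˣ) = (φ x i : ℤ) := by
    intro i
    obtain ⟨h, hh⟩ := hb.extension_property_addMonoidHom Λ.toAddSubgroup.subtype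
      Subtype.val_injective
      ((Int.castAddHom ℚ).comp ((LinearMap.proj i).comp φ : Λ →ₗ[ℤ] ℤ).toAddMonoidHom)
    exact ⟨h, fun x => DFunLike.congr_fun hh x⟩
  choose h hh using hext
  choose β hβ using fun i : Fin r => hφsurj (Pi.single i 1)
  have hEΛ : ∀ x ∈ E, Additive.ofMul x ∈ Λ := fun x hx => Submodule.subset_span ⟨x, hx, rfl⟩
  have hcl : ∀ x ∈ Subgroup.closure (E : Set ℂˣ), Additive.ofMul x ∈ Λ := by
    intro x hx
    induction hx using Subgroup.closure_induction with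
    | mem x hx => exact hEΛ x hx
    | one => exact Λ.zero_mem
    | mul x y _ _ hx hy => exact Λ.add_mem hx hy
    | inv x _ hx => exact Λ.neg_mem hx
  let Lg : Additive ℂˣ →+ ℝ :=
    { toFun := fun x => Real.log ‖((Additive.toMul x : ℂˣ) : ℂ)‖
      map_zero' := by simp
      map_add' := by
        intro x y
        rw [toMul_add, Units.val_mul, norm_mul, Real.log_mul] <;> simp }
  refine ⟨r, fun x i => h i (Additive.ofMul x), fun i => Lg (β i : Additive ℂˣ), ?_, ?_, ?_, ?_,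
    ?_⟩
  · intro x z
    funext i
    simp only [Pi.add_apply]
    rw [ofMul_mul, map_add]
  · funext i
    simp only [Pi.zero_apply]
    rw [ofMul_one, map_zero]
  · intro x hx
    exact ⟨φ ⟨_, hEΛ x hx⟩, fun i => hh i ⟨_, hEΛ x hx⟩⟩
  · intro x hx h0
    have h1 : φ ⟨_, hcl x hx⟩ = 0 := by
      funext i
      have h2 := hh i ⟨_, hcl x hx⟩
      have h3 := congrFun h0 i
      simp only [Pi.zero_apply] at h3
      rw [h3] at h2
      exact_mod_cast h2.symm
    obtain ⟨n, hn, h4⟩ := hφker _ h1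
    refine ⟨n, hn, ?_⟩
    have h5 : n • Additive.ofMul x = 0 := congrArg Subtype.val h4
    rw [← ofMul_pow] at h5
    exact ofMul_eq_zero.1 h5
  · intro x hx
    set X : Λ := ⟨Additive.ofMul x, hEΛ x hx⟩ with hX
    have h1 : φ (X - ∑ i, φ X i • β i) = 0 := by
      rw [map_sub, map_sum]
      simp only [map_smul, hβ]
      funext j
      simp [Finset.sum_apply, Pi.single_apply]
    obtain ⟨n, hn, h2⟩ := hφker _ h1
    have h3 : n • (Additive.ofMul x - ∑ i, φ X i • (β i : Additive ℂˣ)) = 0 := by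
      have := congrArg (Subtype.val : Λ → Additive ℂˣ) h2
      simpa [Submodule.coe_sum] using this
    have h4 := congrArg Lg h3
    rw [map_nsmul, map_zero, map_sub, map_sum, nsmul_eq_mul] at h4
    have h5 : (n : ℝ) ≠ 0 := by exact_mod_cast hn.ne'
    have h6 := (mul_eq_zero.1 h4).resolve_left h5
    have h7 : Real.log ‖(x : ℂ)‖ = Lg (Additive.ofMul x) := rfl
    rw [h7, sub_eq_zero.1 h6]
    refine Finset.sum_congr rfl fun i _ => ?_
    have h8 : h i (Additive.ofMul x) = (φ X i : ℤ) := hh i X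
    rw [map_zsmul, zsmul_eq_mul, mul_comm]
    change _ = Lg (β i : Additive ℂˣ) * ((h i (Additive.ofMul x) : ℚ) : ℝ)
    rw [h8]
    push_cast
    rfl

/-- Finitely many strict linear inequalities with integral coefficients which have a real solution
have an integral solution. -/
theorem exists_int {r : ℕ} (S : Finset (Fin r → ℤ)) (y : Fin r → ℝ)
    (hy : ∀ s ∈ S, 0 < ∑ i, y i * (s i : ℝ)) :
    ∃ l : Fin r → ℤ, ∀ s ∈ S, 0 < ∑ i, l i * s i := by
  have hopen : IsOpen {z : Fin r → ℝ | ∀ s ∈ S, 0 < ∑ i, z i * (s i : ℝ)} := by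
    have h1 : {z : Fin r → ℝ | ∀ s ∈ S, 0 < ∑ i, z i * (s i : ℝ)} =
        ⋂ s ∈ S, {z : Fin r → ℝ | 0 < ∑ i, z i * (s i : ℝ)} := by
      ext z
      simp
    rw [h1]
    refine isOpen_biInter_finset fun s _ => ?_
    exact isOpen_lt continuous_const (by fun_prop)
  have hd : DenseRange (Pi.map (fun _ : Fin r => ((↑) : ℚ → ℝ))) :=
    DenseRange.piMap fun _ => Rat.denseRange_cast
  obtain ⟨q, hq⟩ := hd.exists_mem_open hopen ⟨y, hy⟩
  have hq' : ∀ s ∈ S, 0 < ∑ i, q i * (s i : ℚ) := by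
    intro s hs
    have h1 := hq s hs
    have h2 : ((∑ i, q i * (s i : ℚ) : ℚ) : ℝ) = ∑ i, (Pi.map (fun _ : Fin r => ((↑) : ℚ → ℝ)) q) i *
        (s i : ℝ) := by
      push_cast
      rfl
    rw [← h2] at h1
    exact_mod_cast h1
  set N : ℕ := ∏ i, (q i).den with hN
  have hN0 : 0 < N := Finset.prod_pos fun i _ => (q i).den_pos
  have hl : ∀ i, ∃ m : ℤ, (m : ℚ) = N * q i := by
    intro i
    obtain ⟨k, hk⟩ := Finset.dvd_prod_of_mem (fun i => (q i).den) (Finset.mem_univ i)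
    rw [← hN] at hk
    refine ⟨k * (q i).num, ?_⟩
    have h2 := Rat.mul_den_eq_num (q i)
    rw [hk]
    push_cast
    rw [← h2]
    ring
  choose l hl using hl
  refine ⟨l, fun s hs => ?_⟩
  have h1 : ((∑ i, l i * s i : ℤ) : ℚ) = N * ∑ i, q i * (s i : ℚ) := by
    push_cast
    rw [Finset.mul_sum]
    refine Finset.sum_congr rfl fun i _ => ?_
    rw [hl]
    ring
  have h2 : (0 : ℚ) < ((∑ i, l i * s i : ℤ) : ℚ) := by
    rw [h1]
    exact mul_pos (by exact_mod_cast hN0) (hq' s hs)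
  exact_mod_cast h2

end Vale.Agent.P280.H63
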