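import Vale.Agent.P280.R2.H63.Fin
import Vale.Agent.P280.R2.H63.WtR
import Vale.Agent.P280.R2.H63.GenR
import Vale.Agent.P280.R2.H730.Aut

/-!
# P280: automorphisms with a pinched fixed point
-/

open DirectSum Module Vale.Agent.P280.S Vale.Agent.P280.R2.H730

namespace Vale.Agent.P280.H63

variable {R : Type} [CommRing R] [Algebra ℂ R]

/-- `c` is an eigenvalue of the differential, at the point of `X` below `x`, of the automorphism
`g` of `X` (and of `O(1)`), which fixes `x`: some tangent vector `v` of the cone at `x` which is not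
a multiple of the Euler vector `h ↦ d · x h` satisfies `v ∘ g = c v` modulo the Euler vector. -/
def IsEigenvalue (𝒜 : ℕ → Submodule ℂ R) (g : R ≃ₐ[ℂ] R) (x : R →ₐ[ℂ] ℂ) (c : ℂ) : Prop :=
  ∃ v : R →ₗ[ℂ] ℂ, IsTangent x v ∧
    (∃ k : ℂ, ∀ d : ℕ, ∀ h ∈ 𝒜 d, v (g h) = c * v h + k * d * x h) ∧
    ∀ k : ℂ, ∃ d : ℕ, ∃ h ∈ 𝒜 d, v h ≠ k * d * x h

variable {𝒜 : ℕ → Submodule ℂ R} [GradedAlgebra 𝒜]

omit [GradedAlgebra 𝒜] in
theorem one_leV {f : R →ₐ[ℂ] R} (hinj : Function.Injective f) (hf : ∀ h ∈ 𝒜 1, f h ∈ 𝒜 1)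
    (hfin : FiniteDimensional ℂ (𝒜 1)) :
    ∃ E : Finset ℂˣ, 𝒜 1 ≤ ⨆ u ∈ E, V 𝒜 f (1, u) := by
  let f1 : End ℂ (𝒜 1) := LinearMap.restrict f.toLinearMap hf
  have hfinite : {μ : ℂ | End.maxGenEigenspace f1 μ ≠ ⊥}.Finite :=
    WellFoundedGT.finite_ne_bot_of_iSupIndep (End.independent_maxGenEigenspace f1)
  refine ⟨(hfinite.preimage (Units.val_injective (α := ℂ)).injOn).toFinset, ?_⟩
  have h1 : (⨆ μ : ℂ, End.maxGenEigenspace f1 μ) = ⊤ := End.iSup_maxGenEigenspace_eq_top f1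
  have h2 : 𝒜 1 = Submodule.map (𝒜 1).subtype ⊤ := by simp
  rw [← h1, Submodule.map_iSup] at h2
  refine h2.le.trans (iSup_le fun μ => ?_)
  by_cases hbot : End.maxGenEigenspace f1 μ = ⊥
  · rw [hbot, Submodule.map_bot]; exact bot_le
  have hμ : μ ≠ 0 := by
    rintro rfl
    apply hbot
    rw [eq_bot_iff]
    intro y hy
    rw [End.mem_maxGenEigenspace] at hy
    obtain ⟨k, hk⟩ := hy
    rw [zero_smul] at hk
    have hs : f1 - 0 = f1 := by ext; simp
    rw [hs] at hk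
    have hinj1 : Function.Injective f1 := by
      intro a b hab
      exact Subtype.ext (hinj (congrArg Subtype.val hab))
    rw [Module.End.pow_apply] at hk
    have : (f1)^[k] y = (f1)^[k] 0 := by
      rw [hk]
      exact (Function.iterate_fixed (map_zero f1) k).symm
    exact (hinj1.iterate k) this
  have hmem : Units.mk0 μ hμ ∈
      (hfinite.preimage (Units.val_injective (α := ℂ)).injOn).toFinset := by
    rw [Set.Finite.mem_toFinset]
    exact hbot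
  have h3 := Submodule.inf_genEigenspace f.toLinearMap (𝒜 1) (k := ⊤) (μ := μ) hf
  have h4 : Submodule.map (𝒜 1).subtype (End.maxGenEigenspace f1 μ) ≤
      V 𝒜 f (1, Units.mk0 μ hμ) := h3.ge
  exact h4.trans (le_iSup₂_of_le (Units.mk0 μ hμ) hmem le_rfl)

omit [GradedAlgebra 𝒜] in
/-- A nonzero tangent vector which is an eigenvector is nonzero on a degree one eigenspace. -/
theorem exists_unit (hX : IsProjectiveManifold 𝒜) {g : R ≃ₐ[ℂ] R} {x : R →ₐ[ℂ] ℂ}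
    (hg : ∀ d : ℕ, ∀ h ∈ 𝒜 d, g h ∈ 𝒜 d) {E : Finset ℂˣ}
    (hE : 𝒜 1 ≤ ⨆ u ∈ E, V 𝒜 (g : R →ₐ[ℂ] R) (1, u)) {w : R →ₗ[ℂ] ℂ} (hw : IsTangent x w)
    (hw0 : w ≠ 0) {c : ℂ} (hwc : ∀ h, w (g h) = c * w h) :
    ∃ u ∈ E, (u : ℂ) = c ∧ ∃ h ∈ V 𝒜 (g : R →ₐ[ℂ] R) (1, u), w h ≠ 0 := by
  by_contra hcon
  push Not at hcon
  apply hw0
  have h1 : 𝒜 1 ≤ LinearMap.ker w := by
    refine hE.trans (iSup₂_le fun u hu h hh => ?_)
    rw [LinearMap.mem_ker]
    by_cases huc : (u : ℂ) = c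
    · exact hcon u hu huc h hh
    · refine ker_of_ne (f := (g : R →ₐ[ℂ] R)) (hg 1) (c := c) (K := 1) (fun y _ => ?_) huc hh
      rw [pow_one]
      have e1 : ((g : R →ₐ[ℂ] R).toLinearMap - c • (1 : End ℂ R)) y = g y - c • y := by simp
      rw [e1, map_sub, map_smul, hwc, smul_eq_mul, sub_self]
  refine tangent_eq_zero (M := Unit) (𝒜 := fun i => 𝒜 i.1) ?_ hw fun _ h hh => h1 hh
  have h2 := hX.gen
  have h3 : {h : R | ∃ _ : Unit, h ∈ 𝒜 1} = {h : R | h ∈ 𝒜 1} := by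
    ext h
    simp
  rw [h3]
  exact h2

/-- Each tangent weight of the torus gives an eigenvalue, modulo torsion. -/
theorem exists_eigen (hX : IsProjectiveManifold 𝒜) {g : R ≃ₐ[ℂ] R} {x : R →ₐ[ℂ] ℂ}
    (hx0 : ¬ IsVertex 𝒜 x) (hg : ∀ d : ℕ, ∀ h ∈ 𝒜 d, g h ∈ 𝒜 d) (hgx : ∀ h, x (g h) = x h) {r : ℕ}
    {W : ℂˣ → Fin r → ℚ} [GradedAlgebra (BR 𝒜 (g : R →ₐ[ℂ] R) W)]
    (hr : ∀ d, 𝒜 d = ⨆ m : Fin r → ℤ, BR 𝒜 (g : R →ₐ[ℂ] R) W (d, m)) {χ : Fin r → ℤ}
    (hχ : T.TangentWeight (BR 𝒜 (g : R →ₐ[ℂ] R) W) x 0 χ) :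
    ∃ (c : ℂ) (w : R →ₗ[ℂ] ℂ), IsTangent x w ∧ T.HasWeight (BR 𝒜 (g : R →ₐ[ℂ] R) W) 0 χ w ∧
      (∃ k : ℂ, ∀ d : ℕ, ∀ h ∈ 𝒜 d, w (g h) = c * w h + k * d * x h) ∧
      ∀ k : ℂ, ∃ d : ℕ, ∃ h ∈ 𝒜 d, w h ≠ k * d * x h := by
  obtain ⟨v, hv, hvw, hne⟩ := hχ
  have hX' : T.IsTorusManifold (BR 𝒜 (g : R →ₐ[ℂ] R) W) := ref_isTorusManifold hr hX
  obtain ⟨e, he⟩ := H587.exists_linearMap 𝒜 (fun d : ℕ => (d : ℂ) • x.toLinearMap)
  have he' : ∀ d, ∀ h ∈ 𝒜 d, e h = d * x h := fun d h hh => he d h hh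
  have heg : ∀ h, e (g h) = e h := by
    intro h
    induction h using DirectSum.Decomposition.inductionOn 𝒜 with
    | zero => simp
    | homogeneous h =>
      rename_i d
      obtain ⟨h, hh⟩ := h
      change e (g h) = e h
      rw [he' d h hh, he' d _ (hg d h hh), hgx]
    | add a b ha hb => rw [map_add, map_add, map_add, ha, hb]
  have hgB : ∀ d m, ∀ h ∈ BR 𝒜 (g : R →ₐ[ℂ] R) W (d, m),
      g h ∈ BR 𝒜 (g : R →ₐ[ℂ] R) W (d, m) := by
    intro d m
    have : BR 𝒜 (g : R →ₐ[ℂ] R) W (d, m) ≤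
        (BR 𝒜 (g : R →ₐ[ℂ] R) W (d, m)).comap (g : R →ₐ[ℂ] R).toLinearMap := by
      refine iSup₂_le fun u hu h hh => ?_
      obtain ⟨h1, h2⟩ := Submodule.mem_inf.1 hh
      refine Submodule.mem_iSup_of_mem u (Submodule.mem_iSup_of_mem hu
        (Submodule.mem_inf.2 ⟨hg d h h1, ?_⟩))
      exact End.mapsTo_maxGenEigenspace_of_comm (Commute.refl _) _ h2
    exact fun h hh => this hh
  let P : Submodule ℂ (R →ₗ[ℂ] ℂ) :=
    { carrier := {w | IsTangent x w ∧ T.HasWeight (BR 𝒜 (g : R →ₐ[ℂ] R) W) 0 χ w}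
      add_mem' := by
        rintro w w' ⟨h1, h2⟩ ⟨h3, h4⟩
        refine ⟨fun a b => ?_, fun d m h hh hne => ?_⟩
        · rw [LinearMap.add_apply, LinearMap.add_apply, LinearMap.add_apply, h1 a b, h3 a b]
          ring
        · by_cases h5 : w h = 0
          · exact h4 d m h hh (fun h6 => hne (by rw [LinearMap.add_apply, h5, h6, add_zero]))
          · exact h2 d m h hh h5
      zero_mem' := ⟨fun a b => by simp, fun d m h hh hne => absurd rfl hne⟩
      smul_mem' := by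
        rintro c w ⟨h1, h2⟩
        refine ⟨fun a b => ?_, fun d m h hh hne => ?_⟩
        · rw [LinearMap.smul_apply, LinearMap.smul_apply, LinearMap.smul_apply, h1 a b]
          simp only [smul_eq_mul]
          ring
        · exact h2 d m h hh (fun h6 => hne (by rw [LinearMap.smul_apply, h6, smul_zero])) }
  obtain ⟨N0, hN0⟩ := H93.exists_dim hX'
  have hfinT := (hN0 x (fun h => hx0 ((ref_isVertex hr).1 h))).1
  have hfinP : FiniteDimensional ℂ P :=
    Submodule.finiteDimensional_of_le (S₂ := H93.tangentSpace x) (fun w hw => hw.1)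
  let G0 : (R →ₗ[ℂ] ℂ) →ₗ[ℂ] (R →ₗ[ℂ] ℂ) := LinearMap.lcomp ℂ ℂ (g : R →ₐ[ℂ] R).toLinearMap
  have hG0 : ∀ w h, G0 w h = w (g h) := fun w h => rfl
  have hGP : ∀ w ∈ P, G0 w ∈ P := by
    rintro w ⟨h1, h2⟩
    refine ⟨fun a b => ?_, fun d m h hh hne => h2 d m _ (hgB d m h hh) hne⟩
    rw [hG0, hG0, hG0, map_mul, h1, hgx, hgx]
  let G : P →ₗ[ℂ] P := G0.restrict hGP
  let N : Submodule ℂ P := (ℂ ∙ e).comap P.subtype
  have hNG : N ≤ N.comap G := by
    intro w hw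
    obtain ⟨k, hk⟩ := Submodule.mem_span_singleton.1 hw
    refine Submodule.mem_span_singleton.2 ⟨k, ?_⟩
    apply LinearMap.ext
    intro h
    change k * e h = (w : R →ₗ[ℂ] ℂ) (g h)
    have h1 := LinearMap.congr_fun hk (g h)
    change k * e (g h) = (w : R →ₗ[ℂ] ℂ) (g h) at h1
    rw [← h1, heg]
  have hvN : (⟨v, hv, hvw⟩ : P) ∉ N := by
    intro hmem
    obtain ⟨k, hk⟩ := Submodule.mem_span_singleton.1 hmem
    obtain ⟨d, m, h, hh, hne'⟩ := hne k
    apply hne'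
    have h1 := LinearMap.congr_fun hk h
    change k * e h = v h at h1
    rw [← h1, he' d h (ref_le hr d m hh)]
    ring
  have hnt : Nontrivial (P ⧸ N) := by
    refine ⟨⟨N.mkQ ⟨v, hv, hvw⟩, 0, fun h => hvN ?_⟩⟩
    exact (Submodule.Quotient.mk_eq_zero N).1 h
  obtain ⟨c, hc⟩ := Module.End.exists_eigenvalue (N.mapQ N G hNG)
  obtain ⟨q, hq⟩ := hc.exists_hasEigenvector
  obtain ⟨w, rfl⟩ := Submodule.mkQ_surjective N q
  have hwN : w ∉ N := fun h => hq.2 ((Submodule.Quotient.mk_eq_zero N).2 h)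
  have h1 : G w - c • w ∈ N := by
    have h2 : (Submodule.Quotient.mk (G w) : P ⧸ N) = c • Submodule.Quotient.mk w :=
      hq.apply_eq_smul
    rw [← Submodule.Quotient.mk_smul] at h2
    exact (Submodule.Quotient.eq N).1 h2
  obtain ⟨k, hk⟩ := Submodule.mem_span_singleton.1 h1
  refine ⟨c, w, w.2.1, w.2.2, ⟨k, fun d h hh => ?_⟩, fun k' => ?_⟩
  · have h3 := LinearMap.congr_fun hk h
    change k * e h = (w : R →ₗ[ℂ] ℂ) (g h) - c * (w : R →ₗ[ℂ] ℂ) h at h3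
    rw [he' d h hh] at h3
    linear_combination -h3
  · by_contra hcon
    push Not at hcon
    apply hwN
    refine Submodule.mem_span_singleton.2 ⟨k', ?_⟩
    apply T.linearMap_ext_graded 𝒜
    intro d h hh
    change k' * e h = (w : R →ₗ[ℂ] ℂ) h
    rw [he' d h hh, hcon d h hh]
    ring

/-- **Pinched fixed points of automorphisms.** -/
theorem hasHomothety_of_aut (hX : IsProjectiveManifold 𝒜) (hN : NefOnRationalCurves 𝒜)
    {g : R ≃ₐ[ℂ] R} {x : R →ₐ[ℂ] ℂ} (hx0 : ¬ IsVertex 𝒜 x) (hg : ∀ d : ℕ, ∀ h ∈ 𝒜 d, g h ∈ 𝒜 d)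
    (hgx : ∀ h, x (g h) = x h)
    (hpin : ∀ c c', IsEigenvalue 𝒜 g x c → IsEigenvalue 𝒜 g x c' → 1 < ‖c‖ ∧ ‖c‖ < ‖c'‖ ^ 2)
    (hnp : (∀ c c', IsEigenvalue 𝒜 g x c → IsEigenvalue 𝒜 g x c' →
      (∃ j k : ℕ, 0 < j ∧ 0 < k ∧ c ^ j = c' ^ k) → c = c') ∨
      (IsDomain R ∧ UniqueFactorizationMonoid R)) : HasHomothety 𝒜 := by
  classical
  have hfin : FiniteDimensional ℂ (𝒜 1) := Module.Finite.iff_fg.2 (fin_one hX)
  obtain ⟨E, hE⟩ := one_leV (𝒜 := 𝒜) (f := (g : R →ₐ[ℂ] R)) g.injective (hg 1) hfin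
  obtain ⟨r, W, y, hW, hW1, hWE, hWtor, hWy⟩ := exists_wtR E
  choose! mE hmE using hWE
  have hA1 : 𝒜 1 ≤ ⨆ m : Fin r → ℤ, BR 𝒜 (g : R →ₐ[ℂ] R) W (1, m) := by
    refine hE.trans (iSup₂_le fun u hu => ?_)
    refine le_trans ?_ (le_iSup (fun m : Fin r → ℤ => BR 𝒜 (g : R →ₐ[ℂ] R) W (1, m)) (mE u))
    exact le_iSup₂_of_le u (hmE u hu) le_rfl
  obtain ⟨hB⟩ := exists_gradedR hW hW1 hX.gen hA1
  have hr : ∀ d, 𝒜 d = ⨆ m : Fin r → ℤ, BR 𝒜 (g : R →ₐ[ℂ] R) W (d, m) := fun d =>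
    le_antisymm (le_iSup_BR (BR_top hW hW1 hX.gen hA1) d) (iSup_le fun m => BR_le (d, m))
  -- the fixed point
  have hxV : ∀ (d : ℕ) (u : ℂˣ), (u : ℂ) ≠ 1 → ∀ h ∈ V 𝒜 (g : R →ₐ[ℂ] R) (d, u), x h = 0 := by
    intro d u hu h hh
    refine ker_of_ne (f := (g : R →ₐ[ℂ] R)) (w := x.toLinearMap) (hg d) (c := 1) (K := 1)
      (fun y _ => ?_) hu hh
    have := eig_pow (f := (g : R →ₐ[ℂ] R)) (x := x) hgx 1 1 y
    rw [sub_self, pow_one, pow_one, zero_mul] at this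
    rw [pow_one]
    exact this
  have hfixed : T.IsFixed (BR 𝒜 (g : R →ₐ[ℂ] R) W) x 0 := by
    intro d m h hh hne
    rw [smul_zero]
    by_contra hm
    apply hne
    have : BR 𝒜 (g : R →ₐ[ℂ] R) W (d, m) ≤ LinearMap.ker x.toLinearMap := by
      refine iSup₂_le fun u hu h hh => ?_
      refine hxV d u (fun h1 => hm ?_) h hh
      have h2 : u = 1 := Units.ext h1
      funext j
      have h3 : W u j = ((m j : ℤ) : ℚ) := hu j
      rw [h2, hW1, Pi.zero_apply] at h3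
      rw [Pi.zero_apply]
      exact_mod_cast h3.symm
    exact this hh
  -- the weights
  have hwt : ∀ χ, T.TangentWeight (BR 𝒜 (g : R →ₐ[ℂ] R) W) x 0 χ →
      ∃ u ∈ E, IsEigenvalue 𝒜 g x (u : ℂ) ∧ mE u = χ := by
    intro χ hχ
    obtain ⟨c, w, hw, hww, ⟨k, hk⟩, hne⟩ := exists_eigen hX hx0 hg hgx hr hχ
    have hc : IsEigenvalue 𝒜 g x c := ⟨w, hw, ⟨k, hk⟩, hne⟩
    have hc1 : c ≠ 1 := by
      rintro rfl
      have := (hpin 1 1 hc hc).1
      rw [norm_one] at this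
      exact lt_irrefl _ this
    have hc2 : (1 : ℂ) - c ≠ 0 := sub_ne_zero.2 (Ne.symm hc1)
    obtain ⟨e, he⟩ := H587.exists_linearMap 𝒜 (fun d : ℕ => (d : ℂ) • x.toLinearMap)
    have he' : ∀ d, ∀ h ∈ 𝒜 d, e h = d * x h := fun d h hh => he d h hh
    have het : IsTangent x e := by
      intro a b
      let F1 : R →ₗ[ℂ] R →ₗ[ℂ] ℂ := (LinearMap.mul ℂ R).compr₂ e
      let G1 : R →ₗ[ℂ] R →ₗ[ℂ] ℂ :=
        (LinearMap.mul ℂ ℂ).compl₁₂ x.toLinearMap e +
          ((LinearMap.mul ℂ ℂ).compl₁₂ x.toLinearMap e).flip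
      have hFG : F1 a b = G1 a b := by
        refine H587.bilin_ext 𝒜 (F := F1) (G := G1) ?_ a b
        intro d d' a ha b hb
        change e (a * b) = x a * e b + x b * e a
        rw [he' _ _ (SetLike.mul_mem_graded ha hb), he' d a ha, he' d' b hb, map_mul]
        push_cast
        ring
      exact hFG
    obtain ⟨w', hw'⟩ : ∃ w' : R →ₗ[ℂ] ℂ, w' = w - (k / (1 - c)) • e := ⟨_, rfl⟩
    have hw't : IsTangent x w' := by
      intro a b
      rw [hw']
      simp only [LinearMap.sub_apply, LinearMap.smul_apply, smul_eq_mul]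
      rw [hw a b, het a b]
      ring
    have hw'c : ∀ h, w' (g h) = c * w' h := by
      intro h
      induction h using DirectSum.Decomposition.inductionOn 𝒜 with
      | zero => simp
      | homogeneous h =>
        rename_i d
        obtain ⟨h, hh⟩ := h
        change w' (g h) = c * w' h
        rw [hw']
        simp only [LinearMap.sub_apply, LinearMap.smul_apply, smul_eq_mul]
        rw [hk d h hh, he' d h hh, he' d _ (hg d h hh), hgx]
        field_simp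
        ring
      | add a b ha hb => rw [map_add, map_add, map_add, ha, hb, mul_add]
    have hw'0 : w' ≠ 0 := by
      intro h0
      obtain ⟨d, h, hh, hne'⟩ := hne (k / (1 - c))
      apply hne'
      have h1 := LinearMap.congr_fun h0 h
      rw [hw'] at h1
      simp only [LinearMap.sub_apply, LinearMap.smul_apply, smul_eq_mul,
        LinearMap.zero_apply] at h1
      rw [he' d h hh] at h1
      linear_combination h1
    obtain ⟨u, hu, huc, h, hh, hne'⟩ := exists_unit hX hg hE hw't hw'0 hw'c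
    refine ⟨u, hu, huc ▸ hc, ?_⟩
    have hxh : x h = 0 := hxV 1 u (by rw [huc]; exact hc1) h hh
    have hh1 : h ∈ 𝒜 1 := (Submodule.mem_inf.1 hh).1
    have hwh : w h ≠ 0 := by
      intro h0
      apply hne'
      rw [hw']
      simp only [LinearMap.sub_apply, LinearMap.smul_apply, smul_eq_mul]
      rw [h0, he' 1 h hh1, hxh]
      ring
    have hhB : h ∈ BR 𝒜 (g : R →ₐ[ℂ] R) W (1, mE u) :=
      Submodule.mem_iSup_of_mem u (Submodule.mem_iSup_of_mem (hmE u hu) hh)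
    have := hww 1 (mE u) h hhB hwh
    rwa [smul_zero, zero_add] at this
  -- the one-parameter group
  set E' : Finset ℂˣ := E.filter (fun u : ℂˣ => IsEigenvalue 𝒜 g x (u : ℂ)) with hE'
  have hlog : ∀ u ∈ E', ∑ i, y i * (mE u i : ℝ) = Real.log ‖(u : ℂ)‖ := by
    intro u hu
    rw [hWy u (Finset.mem_filter.1 hu).1]
    refine Finset.sum_congr rfl fun i _ => ?_
    rw [hmE u (Finset.mem_filter.1 hu).1 i]
    push_cast
    rfl
  obtain ⟨l0, hl0⟩ := exists_int (E'.image mE ∪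
      (E' ×ˢ E').image (fun u => (2 : ℤ) • mE u.2 - mE u.1)) y (by
    intro s hs
    rcases Finset.mem_union.1 hs with hs | hs
    · obtain ⟨u, hu, rfl⟩ := Finset.mem_image.1 hs
      rw [hlog u hu]
      have h1 := (Finset.mem_filter.1 hu).2
      exact Real.log_pos (hpin _ _ h1 h1).1
    · obtain ⟨⟨u, u'⟩, hu, rfl⟩ := Finset.mem_image.1 hs
      obtain ⟨hu1, hu2⟩ := Finset.mem_product.1 hu
      dsimp only at hu1 hu2
      have h1 := (Finset.mem_filter.1 hu1).2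
      have h2 := (Finset.mem_filter.1 hu2).2
      have h3 : ∑ i, y i * ((((2 : ℤ) • mE u' - mE u) i : ℤ) : ℝ) =
          2 * Real.log ‖(u' : ℂ)‖ - Real.log ‖(u : ℂ)‖ := by
        rw [← hlog u hu1, ← hlog u' hu2, Finset.mul_sum, ← Finset.sum_sub_distrib]
        refine Finset.sum_congr rfl fun i _ => ?_
        simp only [Pi.sub_apply, Pi.smul_apply, smul_eq_mul]
        push_cast
        ring
      rw [h3]
      have h4 := (hpin _ _ h1 h2).2
      have h5 := (hpin _ _ h1 h1).1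
      have h6 := Real.log_lt_log (by linarith) h4
      rw [Real.log_pow] at h6
      push_cast at h6
      linarith)
  let l : (Fin r → ℤ) →+ ℤ :=
    { toFun := fun m => ∑ i, l0 i * m i
      map_zero' := by simp
      map_add' := fun a b => by
        rw [← Finset.sum_add_distrib]
        refine Finset.sum_congr rfl fun i _ => ?_
        rw [Pi.add_apply]
        ring }
  have hl1 : ∀ u ∈ E', 0 < l (mE u) := fun u hu =>
    hl0 _ (Finset.mem_union_left _ (Finset.mem_image_of_mem _ hu))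
  have hl2 : ∀ u ∈ E', ∀ u' ∈ E', l (mE u) < 2 * l (mE u') := by
    intro u hu u' hu'
    have h1 : 0 < l ((2 : ℤ) • mE u' - mE u) :=
      hl0 _ (Finset.mem_union_right _ (Finset.mem_image_of_mem
        (fun u : ℂˣ × ℂˣ => (2 : ℤ) • mE u.2 - mE u.1)
        (Finset.mem_product.2 ⟨hu, hu'⟩ : (u, u') ∈ E' ×ˢ E')))
    rw [map_sub, map_zsmul, smul_eq_mul] at h1
    linarith
  have hwt' : ∀ χ, T.TangentWeight (BR 𝒜 (g : R →ₐ[ℂ] R) W) x 0 χ →
      ∃ u ∈ E', mE u = χ := by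
    intro χ hχ
    obtain ⟨u, hu, he, h⟩ := hwt χ hχ
    exact ⟨u, Finset.mem_filter.2 ⟨hu, he⟩, h⟩
  have hnp' : (∀ χ χ', T.TangentWeight (BR 𝒜 (g : R →ₐ[ℂ] R) W) x 0 χ →
      T.TangentWeight (BR 𝒜 (g : R →ₐ[ℂ] R) W) x 0 χ' →
      (∃ j k : ℕ, 0 < j ∧ 0 < k ∧ j • χ = k • χ') → χ = χ') ∨
      (IsDomain R ∧ UniqueFactorizationMonoid R) := by
    rcases hnp with hnp | hnp
    · left
      rintro χ χ' hχ hχ' ⟨j, k, hj, hk, hjk⟩
      obtain ⟨u, hu, he, rfl⟩ := hwt χ hχ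
      obtain ⟨u', hu', he', rfl⟩ := hwt χ' hχ'
      have hpow : ∀ (u : ℂˣ) (n : ℕ), W (u ^ n) = n • W u := by
        intro u n
        induction n with
        | zero => rw [pow_zero, hW1, zero_smul]
        | succ n ih => rw [pow_succ, hW, ih, succ_nsmul]
      have h1 : W (u ^ j * (u' ^ k)⁻¹) = 0 := by
        have h2 : W (u ^ j * (u' ^ k)⁻¹) + W (u' ^ k) = W (u ^ j) := by
          rw [← hW, inv_mul_cancel_right]
        have h3 : W (u ^ j) = W (u' ^ k) := by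
          rw [hpow, hpow]
          funext i
          have h4 := congrFun hjk i
          simp only [Pi.smul_apply, nsmul_eq_mul] at h4 ⊢
          rw [hmE u hu i, hmE u' hu' i]
          exact_mod_cast h4
        rw [h3] at h2
        exact add_eq_right.1 h2
      obtain ⟨n, hn, h5⟩ := hWtor _ (Subgroup.mul_mem _
        (Subgroup.pow_mem _ (Subgroup.subset_closure hu) j)
        (Subgroup.inv_mem _ (Subgroup.pow_mem _ (Subgroup.subset_closure hu') k))) h1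
      have h6 : u ^ (j * n) = u' ^ (k * n) := by
        rw [mul_pow, inv_pow, ← pow_mul, ← pow_mul, mul_inv_eq_one] at h5
        exact h5
      have h7 : (u : ℂ) = u' := by
        refine hnp _ _ he he' ⟨j * n, k * n, Nat.mul_pos hj hn, Nat.mul_pos hk hn, ?_⟩
        have := congrArg Units.val h6
        simpa using this
      rw [Units.ext h7]
    · right
      exact hnp
  rcases E'.eq_empty_or_nonempty with hemp | hne
  · refine hasHomothety_of_pinched hX hN hr (l := l) (a := 1) (b := 1) hx0 hfixed ?_ (by norm_num)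
      hnp'
    intro χ hχ
    obtain ⟨u, hu, -⟩ := hwt' χ hχ
    rw [hemp] at hu
    exact absurd hu (Finset.notMem_empty _)
  · obtain ⟨u1, hu1, h1⟩ := E'.exists_max_image (fun u => l (mE u)) hne
    obtain ⟨u2, hu2, h2⟩ := E'.exists_min_image (fun u => l (mE u)) hne
    refine hasHomothety_of_pinched hX hN hr (l := l) (a := l (mE u1)) (b := l (mE u2)) hx0 hfixed
      ?_ (hl2 u1 hu1 u2 hu2) hnp'
    intro χ hχ
    obtain ⟨u, hu, rfl⟩ := hwt' χ hχ
    exact ⟨h2 u hu, h1 u hu⟩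

end Vale.Agent.P280.H63
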