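import Vale.Agent.P280.H812.Parts

/-!
# P280: torus-fixed points with exactly one negative weight

`q` is a fixed point of the torus, `l` a one-parameter group with exactly one negative weight at
`q`, namely `ω = wt i₀`; `z` is a point of the cell which is contracted to `q` as `t → ∞`.
-/

open DirectSum Vale.Agent.P280.T Vale.Agent.P280.H127

namespace Vale.Agent.P280.H63

variable {M : Type} [AddCommGroup M] [DecidableEq M] {R : Type} [CommRing R] [Algebra ℂ R]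
  {𝒜 : ℕ × M → Submodule ℂ R} [GradedAlgebra 𝒜]

/-- The grading by the weights relative to the fixed point with character `ν`. -/
abbrev gr (𝒜 : ℕ × M → Submodule ℂ R) (ν : M) : M → Submodule ℂ R :=
  coarse 𝒜 (rl (AddMonoidHom.id M) ν)

omit [GradedAlgebra 𝒜] in
theorem mem_gr {ν : M} {d : ℕ} {m : M} {h : R} (hh : h ∈ 𝒜 (d, m)) : h ∈ gr 𝒜 ν (m - d • ν) :=
  mem_coarse hh rfl

omit [GradedAlgebra 𝒜] in
theorem gr_ind {ν ψ : M} {P : R → Prop} (h0 : P 0) (hadd : ∀ a b, P a → P b → P (a + b))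
    (hmem : ∀ (d : ℕ) (m : M), m = d • ν + ψ → ∀ h ∈ 𝒜 (d, m), P h) {x : R}
    (hx : x ∈ gr 𝒜 ν ψ) : P x := by
  refine coarse_induction (P := P) h0 hadd ?_ hx
  rintro ⟨d, m⟩ hi h hh
  refine hmem d m ?_ h hh
  rw [rl_apply] at hi
  rw [← hi]
  simp

/-- `z` lies in the cell of `q`: `z = q` on the elements of slope `l ν`, and `z` vanishes on the
elements of higher slope. -/
structure Below (𝒜 : ℕ × M → Submodule ℂ R) (l : M →+ ℤ) (q z : R →ₐ[ℂ] ℂ) (ν : M) : Prop where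
  eq : ∀ (d : ℕ) (m : M), ∀ h ∈ 𝒜 (d, m), l m = d • l ν → z h = q h
  le : ∀ (d : ℕ) (m : M), ∀ h ∈ 𝒜 (d, m), z h ≠ 0 → l m ≤ d • l ν

variable {l : M →+ ℤ} {q z : R →ₐ[ℂ] ℂ} {ν : M}

omit [GradedAlgebra 𝒜] in
theorem Below.eq_gr (B : Below 𝒜 l q z ν) {ψ : M} (hψ : l ψ = 0) {b : R} (hb : b ∈ gr 𝒜 ν ψ) :
    z b = q b := by
  refine gr_ind (P := fun b => z b = q b) (by rw [map_zero, map_zero])
    (fun a b ha hb => by rw [map_add, map_add, ha, hb]) ?_ hb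
  intro d m hm h hh
  refine B.eq d m h hh ?_
  rw [hm, map_add, hψ, map_nsmul, add_zero]

omit [GradedAlgebra 𝒜] in
theorem Below.zero_gr (B : Below 𝒜 l q z ν) {ψ : M} (hψ : 0 < l ψ) {b : R}
    (hb : b ∈ gr 𝒜 ν ψ) : z b = 0 := by
  refine gr_ind (P := fun b => z b = 0) (map_zero z)
    (fun a b ha hb => by rw [map_add, ha, hb, add_zero]) ?_ hb
  intro d m hm h hh
  by_contra hne
  have := B.le d m h hh hne
  rw [hm, map_add, map_nsmul] at this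
  linarith

/-- Exactly one weight at `q` is negative for `l`. -/
structure One (𝒜 : ℕ × M → Submodule ℂ R) [GradedAlgebra 𝒜] (l : M →+ ℤ) (q : R →ₐ[ℂ] ℂ) (ν : M)
    {n : ℕ} (u : Fin n → R) (wt : Fin n → M) (i₀ : Fin n) : Prop where
  fix : IsFixed 𝒜 q ν
  gens : Gens (gr 𝒜 ν) q u wt
  ht : (n : ℕ∞) = (mx q).height
  neg : l (wt i₀) < 0
  nonneg : ∀ i, i ≠ i₀ → 0 ≤ l (wt i)

variable {n : ℕ} {u : Fin n → R} {wt : Fin n → M} {i₀ : Fin n}

/-- elements of negative slope are locally divisible by `u i₀` -/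
theorem One.dvd (hX : IsTorusManifold 𝒜) (O : One 𝒜 l q ν u wt i₀) {ψ : M} (hψ : l ψ < 0) {b : R}
    (hb : b ∈ gr 𝒜 ν ψ) : ∃ t ∈ gr 𝒜 ν 0, q t = 1 ∧ ∃ c ∈ gr 𝒜 ν (ψ - wt i₀), t * b = c * u i₀ := by
  have := noeth hX
  have hF := fix_of_isFixed O.fix
  have hψ0 : ψ ≠ 0 := by
    rintro rfl
    rw [map_zero] at hψ
    exact lt_irrefl _ hψ
  obtain ⟨t, ht0, ht1, ht⟩ := lemmaA' hF O.gens (C := {ψ | l ψ < 0}) (J := {i₀}) (by
    intro w hw i hi
    have h1 : l w < 0 := hw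
    have h2 := O.nonneg i hi
    have h3 : l (w - wt i) < 0 := by
      rw [map_sub]
      linarith
    refine ⟨h3, fun h0 => ?_⟩
    rw [h0, map_zero] at h3
    exact lt_irrefl _ h3) (w := ψ) hψ hb (mem_mx.2 (hF ψ hψ0 b hb))
  refine ⟨t, ht0, ht1, ?_⟩
  rw [Set.image_singleton] at ht
  obtain ⟨c, hc⟩ := Ideal.mem_span_singleton'.1 ht
  refine ⟨cp (gr 𝒜 ν) (ψ - wt i₀) c, cp_mem _ _ _, ?_⟩
  have h1 : t * b ∈ gr 𝒜 ν ψ := by
    have := SetLike.mul_mem_graded ht0 hb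
    rwa [zero_add] at this
  rw [← cp_mul_right (gr 𝒜 ν) (O.gens.hom i₀), hc, cp_of_mem _ h1]

/-- The support of `z` consists of multiples of the negative weight. -/
theorem One.supp (hX : IsTorusManifold 𝒜) (O : One 𝒜 l q ν u wt i₀) (B : Below 𝒜 l q z ν)
    (N : ℕ) : ∀ ψ : M, -l ψ ≤ N → ∀ b ∈ gr 𝒜 ν ψ, z b ≠ 0 →
      ∃ k : ℕ, ψ = k • wt i₀ ∧ (k ≠ 0 → z (u i₀) ≠ 0) := by
  have hF := fix_of_isFixed O.fix
  have key : ∀ ψ : M, 0 ≤ l ψ → ∀ b ∈ gr 𝒜 ν ψ, z b ≠ 0 →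
      ∃ k : ℕ, ψ = k • wt i₀ ∧ (k ≠ 0 → z (u i₀) ≠ 0) := by
    intro ψ hψ b hb hne
    have h0 : l ψ = 0 := by
      by_contra h
      exact hne (B.zero_gr (lt_of_le_of_ne hψ (Ne.symm h)) hb)
    rw [B.eq_gr h0 hb] at hne
    have h1 : ψ = 0 := by
      by_contra h
      exact hne (hF ψ h b hb)
    exact ⟨0, by rw [h1, zero_smul], fun h => absurd rfl h⟩
  induction N with
  | zero =>
    intro ψ hψ b hb hne
    exact key ψ (by simpa using hψ) b hb hne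
  | succ N ih =>
    intro ψ hψ b hb hne
    by_cases h0 : 0 ≤ l ψ
    · exact key ψ h0 b hb hne
    push Not at h0
    obtain ⟨t, ht0, ht1, c, hc, he⟩ := O.dvd hX h0 hb
    have h1 : z t = 1 := by rw [B.eq_gr (map_zero l) ht0, ht1]
    have h2 : z b = z c * z (u i₀) := by rw [← map_mul, ← he, map_mul, h1, one_mul]
    rw [h2] at hne
    have hneg := O.neg
    obtain ⟨k, hk, -⟩ := ih (ψ - wt i₀) (by
      rw [map_sub]
      push_cast at hψ
      linarith) c hc (left_ne_zero_of_mul hne)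
    refine ⟨k + 1, ?_, fun _ => right_ne_zero_of_mul hne⟩
    rw [add_smul, one_smul, ← hk, sub_add_cancel]

theorem One.supp' (hX : IsTorusManifold 𝒜) (O : One 𝒜 l q ν u wt i₀) (B : Below 𝒜 l q z ν)
    {d : ℕ} {m : M} {h : R} (hh : h ∈ 𝒜 (d, m)) (hne : z h ≠ 0) :
      ∃ k : ℕ, m = d • ν + k • wt i₀ ∧ (k ≠ 0 → z (u i₀) ≠ 0) := by
  obtain ⟨k, hk, h2⟩ := O.supp hX B (-l (m - d • ν)).toNat (m - d • ν) (Int.self_le_toNat _) h
    (mem_gr hh) hne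
  exact ⟨k, by rw [← hk]; abel, h2⟩

omit [GradedAlgebra 𝒜] in
/-- a degree one element of another slope which does not vanish at `z` -/
theorem exists_off (hX : IsTorusManifold 𝒜) (hfix : IsFixed 𝒜 q ν) (B : Below 𝒜 l q z ν)
    (hz : z ≠ q) : ∃ m, ∃ h ∈ 𝒜 (1, m), z h ≠ 0 ∧ m ≠ ν := by
  by_contra hcon
  push Not at hcon
  apply hz
  refine AlgHom.ext_of_adjoin_eq_top hX.gen ?_
  rintro h ⟨m, hh⟩
  by_cases hm : m = ν
  · subst hm
    exact B.eq 1 m h hh (by rw [one_smul])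
  · have h1 : z h = 0 := by
      by_contra h2
      exact hm (hcon m h hh h2)
    have h2 : q h = 0 := by
      by_contra h3
      have := hfix 1 m h hh h3
      rw [one_smul] at this
      exact hm this
    rw [h1, h2]

theorem One.off (hX : IsTorusManifold 𝒜) (O : One 𝒜 l q ν u wt i₀) (B : Below 𝒜 l q z ν)
    (hz : z ≠ q) : z (u i₀) ≠ 0 ∧ ∃ k : ℕ, k ≠ 0 ∧ ∃ h ∈ 𝒜 (1, ν + k • wt i₀), z h ≠ 0 := by
  obtain ⟨m, h, hh, hne, hm⟩ := exists_off hX O.fix B hz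
  obtain ⟨k, hk, h2⟩ := O.supp' hX B hh hne
  rw [one_smul] at hk
  have hk0 : k ≠ 0 := by
    rintro rfl
    apply hm
    rw [hk, zero_smul, add_zero]
  exact ⟨h2 hk0, k, hk0, h, hk ▸ hh, hne⟩

/-- the lowest slope of `z` -/
theorem One.exists_max (hX : IsTorusManifold 𝒜) (O : One 𝒜 l q ν u wt i₀) (B : Below 𝒜 l q z ν)
    (hz : z ≠ q) : ∃ κ : ℕ, κ ≠ 0 ∧ (∃ h ∈ 𝒜 (1, ν + κ • wt i₀), z h ≠ 0) ∧
      ∀ (d : ℕ) (m : M), ∀ h ∈ 𝒜 (d, m), z h ≠ 0 → d • l (ν + κ • wt i₀) ≤ l m := by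
  obtain ⟨-, k, hk, hex⟩ := O.off hX B hz
  set S : Set ℕ := {k | ∃ h ∈ 𝒜 (1, ν + k • wt i₀), z h ≠ 0} with hS
  have hfin : S.Finite := by
    refine Set.Finite.of_finite_image (f := fun k : ℕ => ν + k • wt i₀)
      ((finite_weights hX).subset ?_) ?_
    · rintro _ ⟨k, ⟨h, hh, hne⟩, rfl⟩
      exact ⟨h, hh, fun h0 => hne (by rw [h0, map_zero])⟩
    · intro a _ b _ hab
      have h1 : a • wt i₀ = b • wt i₀ := add_left_cancel hab
      have h2 := congrArg l h1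
      rw [map_nsmul, map_nsmul, nsmul_eq_mul, nsmul_eq_mul] at h2
      have h3 := mul_right_cancel₀ O.neg.ne h2
      exact_mod_cast h3
  have hkS : k ∈ S := hex
  obtain ⟨κ, hκ, hmax⟩ := hfin.exists_maximalFor id S ⟨k, hkS⟩
  have hmax' : ∀ j ∈ S, j ≤ κ := by
    intro j hj
    rcases le_total j κ with h | h
    · exact h
    · exact hmax hj h
  refine ⟨κ, ?_, hκ, ?_⟩
  · have := hmax' k hkS
    omega
  · intro d m h hh hne
    refine slope_le hX.gen l (l (ν + κ • wt i₀)) (RingHom.ker z) ?_ d m h hh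
      (fun h0 => hne (RingHom.mem_ker.1 h0))
    intro m h hh hI
    have hne : z h ≠ 0 := fun h0 => hI (RingHom.mem_ker.2 h0)
    obtain ⟨j, hj, -⟩ := O.supp' hX B hh hne
    rw [one_smul] at hj
    have h1 := hmax' j ⟨h, hj ▸ hh, hne⟩
    rw [hj, map_add, map_add, map_nsmul, map_nsmul, nsmul_eq_mul, nsmul_eq_mul]
    have h2 : (j : ℤ) ≤ κ := by exact_mod_cast h1
    nlinarith [O.neg]

end Vale.Agent.P280.H63
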