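import Vale.Agent.P280.R2.H63.Lift
import Vale.Agent.P280.H93.E0
import Vale.Agent.P280.H93.Tangent

/-!
# P280: linear coordinates at an isolated source
-/

open DirectSum Vale.Agent.P280.T Vale.Agent.P280.H127

namespace Vale.Agent.P280.H63

variable {M : Type} [AddCommGroup M] [DecidableEq M] {R : Type} [CommRing R] [Algebra ℂ R]
  {𝒜 : ℕ × M → Submodule ℂ R} [GradedAlgebra 𝒜] {l : M →+ ℤ} {p : R →ₐ[ℂ] ℂ} {μ : M} {a : ℤ}

omit [DecidableEq M] [GradedAlgebra 𝒜] in
/-- a tangent vector is determined by its values in degree one -/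
theorem tangent_eq_zero (hgen : Algebra.adjoin ℂ {h : R | ∃ m : M, h ∈ 𝒜 (1, m)} = ⊤)
    {w : R →ₗ[ℂ] ℂ} (hw : IsTangent p w) (h0 : ∀ m, ∀ h ∈ 𝒜 (1, m), w h = 0) : w = 0 := by
  apply LinearMap.ext
  intro x
  rw [LinearMap.zero_apply]
  have hx : x ∈ Algebra.adjoin ℂ {h : R | ∃ m : M, h ∈ 𝒜 (1, m)} := by
    rw [hgen]; trivial
  induction hx using Algebra.adjoin_induction with
  | mem x hx =>
    obtain ⟨m, hm⟩ := hx
    exact h0 m x hm
  | algebraMap r =>
    rw [Algebra.algebraMap_eq_smul_one, map_smul]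
    have h2 := hw 1 1
    rw [mul_one, map_one p, one_mul] at h2
    have h3 : w 1 = 0 := by linear_combination -h2
    rw [h3, smul_zero]
  | add x y _ _ hx hy => rw [map_add, hx, hy, add_zero]
  | mul x y _ _ hx hy => rw [hw, hx, hy, mul_zero, mul_zero, add_zero]

theorem exists_coords1 (hX : IsTorusManifold 𝒜) (hp : ¬ IsVertex 𝒜 p) :
    ∃ (n : ℕ) (x : Fin n → R) (m : Fin n → M) (v : Fin n → R →ₗ[ℂ] ℂ),
      (∀ j, x j ∈ 𝒜 (1, m j)) ∧ (∀ i, IsTangent p (v i)) ∧
      (∀ i j, v i (x j) = if i = j then 1 else 0) ∧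
      ∀ w, IsTangent p w → (∀ j, w (x j) = 0) → w = 0 := by
  obtain ⟨N, hN⟩ := H93.exists_dim hX
  obtain ⟨hfin, hrk⟩ := hN p hp
  let T := H93.tangentSpace p
  let ev : R → Module.Dual ℂ T := fun h => (LinearMap.applyₗ h).comp T.subtype
  have hev : ∀ h (w : T), ev h w = (w : R →ₗ[ℂ] ℂ) h := fun h w => rfl
  let S : Set (Module.Dual ℂ T) := {φ | ∃ m, ∃ h ∈ 𝒜 (1, m), φ = ev h}
  have hspan : Submodule.span ℂ S = ⊤ := by
    by_contra hne
    obtain ⟨F, hF0, hF⟩ := Submodule.exists_le_ker_of_lt_top _ (lt_top_iff_ne_top.2 hne)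
    obtain ⟨w, hw⟩ := (Module.evalEquiv ℂ T).surjective F
    apply hF0
    have h1 : (w : R →ₗ[ℂ] ℂ) = 0 := by
      refine tangent_eq_zero (𝒜 := 𝒜) hX.gen w.2 ?_
      intro m h hh
      have h2 : ev h ∈ LinearMap.ker F := hF (Submodule.subset_span ⟨m, h, hh, rfl⟩)
      rw [LinearMap.mem_ker, ← hw] at h2
      exact h2
    have h2 : w = 0 := Subtype.ext h1
    rw [← hw, h2, map_zero]
  obtain ⟨b, hb, hli⟩ := H93.exists_fin_family (⊤ : Submodule ℂ (Module.Dual ℂ T)) S hspan
    (N := N) (by rw [finrank_top, Subspace.dual_finrank_eq]; exact hrk)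
  choose m x hx hbx using hb
  let φ : T →ₗ[ℂ] (Fin N → ℂ) := LinearMap.pi b
  have hφ : ∀ w j, φ w j = (w : R →ₗ[ℂ] ℂ) (x j) := by
    intro w j
    change b j w = _
    rw [hbx]
    rfl
  have hinj : Function.Injective φ := by
    rw [← LinearMap.ker_eq_bot, LinearMap.ker_eq_bot']
    intro w hw
    apply (Module.forall_dual_apply_eq_zero_iff ℂ w).1
    intro g
    have hg : g ∈ Submodule.span ℂ (Set.range b) := by
      rw [hli.span_eq_top_of_card_eq_finrank' (by
        rw [Fintype.card_fin, Subspace.dual_finrank_eq]; exact hrk.symm)]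
      trivial
    induction hg using Submodule.span_induction with
    | mem y hy =>
      obtain ⟨j, rfl⟩ := hy
      exact congrFun hw j
    | zero => simp
    | add y z _ _ hy hz => rw [LinearMap.add_apply, hy, hz, add_zero]
    | smul c y _ hy => rw [LinearMap.smul_apply, hy, smul_zero]
  have hsurj : Function.Surjective φ := by
    rw [← LinearMap.injective_iff_surjective_of_finrank_eq_finrank]
    · exact hinj
    · rw [hrk, Module.finrank_fin_fun]
  choose w hw using fun i : Fin N => hsurj (Pi.single i 1)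
  refine ⟨N, x, m, fun i => (w i : R →ₗ[ℂ] ℂ), hx, fun i => (w i).2, ?_, ?_⟩
  · intro i j
    rw [← hφ, hw, Pi.single_apply]
    simp only [eq_comm]
  · intro w' hw' h0
    have h1 : (⟨w', hw'⟩ : T) = 0 := by
      apply hinj
      rw [map_zero]
      funext j
      rw [hφ]
      exact h0 j
    exact congrArg Subtype.val h1

/-- the dual vectors of homogeneous coordinates are homogeneous -/
theorem dual_hasWeight (hfix : IsFixed 𝒜 p μ) {n : ℕ} {x : Fin n → R} {m : Fin n → M}
    {v : Fin n → R →ₗ[ℂ] ℂ} (hx : ∀ j, x j ∈ 𝒜 (1, m j)) (hv : ∀ i, IsTangent p (v i))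
    (hvx : ∀ i j, v i (x j) = if i = j then 1 else 0)
    (hext : ∀ w, IsTangent p w → (∀ j, w (x j) = 0) → w = 0) (i : Fin n) :
    HasWeight 𝒜 μ (m i - μ) (v i) := by
  obtain ⟨v', h1, h2, h3⟩ := H587.exists_component hfix (hv i) (m i - μ)
  have h4 : v i - v' = 0 := by
    refine hext _ ?_ ?_
    · intro a b
      rw [LinearMap.sub_apply, LinearMap.sub_apply, LinearMap.sub_apply, hv i a b, h1 a b]
      ring
    · intro j
      rw [LinearMap.sub_apply, hvx]
      by_cases hj : m j = m i
      · rw [h3 1 (m j) (x j) (hx j) (by rw [one_smul, hj]; abel), hvx, sub_self]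
      · have h5 : v' (x j) = 0 := by
          by_contra hne
          apply hj
          have := h2 1 (m j) (x j) (hx j) hne
          rw [this, one_smul]
          abel
        rw [h5, if_neg (fun h => hj (by rw [h])), sub_zero]
  rw [sub_eq_zero.1 h4]
  exact h2

/-- derivations which agree on coordinates are equal -/
theorem der_eq_zero (hX : IsTorusManifold 𝒜) {n : ℕ} {x : Fin n → R}
    (hext : ∀ w, IsTangent p w → (∀ j, w (x j) = 0) → w = 0) (D : Derivation ℂ R R)
    (hD : ∀ j, D (x j) = 0) : D = 0 := by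
  have := hX.finiteType
  have := hX.domain
  obtain ⟨s, hs, hsL⟩ := H93.exists_localizer x hext
  have hs0 : s ≠ 0 := by
    rintro rfl
    rw [map_zero] at hs
    exact zero_ne_one hs
  have h1 : ∀ ω ∈ Submodule.span R (Set.range fun j => KaehlerDifferential.D ℂ R (x j)),
      D.liftKaehlerDifferential ω = 0 := by
    intro ω hω
    induction hω using Submodule.span_induction with
    | mem y hy =>
      obtain ⟨j, rfl⟩ := hy
      change D.liftKaehlerDifferential (KaehlerDifferential.D ℂ R (x j)) = 0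
      rw [Derivation.liftKaehlerDifferential_comp_D, hD]
    | zero => exact map_zero _
    | add y z _ _ hy hz => rw [map_add, hy, hz, add_zero]
    | smul a y _ hy => rw [map_smul, hy, smul_zero]
  apply Derivation.ext
  intro h
  have h2 := h1 _ (hsL (KaehlerDifferential.D ℂ R h))
  rw [map_smul, Derivation.liftKaehlerDifferential_comp_D, smul_eq_mul] at h2
  rw [Derivation.coe_zero, Pi.zero_apply]
  exact (mul_eq_zero.1 h2).resolve_left hs0

end Vale.Agent.P280.H63
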