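import Vale.Agent.P280.R2.H63.Frame

/-!
# P280: the Euler field of the cell of a pinched source has no poles
-/

open DirectSum Vale.Agent.P280.T Vale.Agent.P280.H127

namespace Vale.Agent.P280.H63

variable {M : Type} [AddCommGroup M] [DecidableEq M] {R : Type} [CommRing R] [Algebra ℂ R]
  {𝒜 : ℕ × M → Submodule ℂ R} [GradedAlgebra 𝒜] {l : M →+ ℤ} {p q : R →ₐ[ℂ] ℂ} {μ ν : M}
  {a b : ℤ} {n : ℕ} {u : Fin n → R} {wt : Fin n → M} {i₀ : Fin n}

/-- The curve from the source to `q`. -/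
theorem One.bottom (hX : IsTorusManifold 𝒜) (hN : NefOnRationalCurves 𝒜)
    (hs : IsSource 𝒜 l p μ a) (hq : ¬ IsVertex 𝒜 q) (O : One 𝒜 l q ν u wt i₀) :
    ∃ (z : R →ₐ[ℂ] ℂ) (κ : ℕ), κ ≠ 0 ∧ Below 𝒜 l q z ν ∧ μ = ν + κ • wt i₀ ∧
      ∀ f ∈ 𝒜 (1, μ), p f ≠ 0 → z f ≠ 0 := by
  have hneg := O.neg
  -- a point of the cell
  obtain ⟨ξ, hξ, hξw, hξu, -⟩ := exists_weight_vector hX (fix_of_isFixed O.fix) O.gens O.ht i₀
  obtain ⟨z, hz, hz1, hz2, -, -⟩ := incoming_w hX hq (w := l) (γ := l ν)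
    (fun d m h hh hne => by rw [O.fix d m h hh hne, map_nsmul]) (k := l (wt i₀)) hξ
    (fun d m h hh hne => by
      have := hξw d m h hh hne
      rw [AddMonoidHom.id_apply] at this
      rw [this, map_add, map_nsmul])
    (by
      rintro rfl
      have := hξu i₀
      rw [if_pos rfl, LinearMap.zero_apply] at this
      exact zero_ne_one this) hneg
  have B : Below 𝒜 l q z ν := ⟨hz1, hz2⟩
  obtain ⟨κ, hκ, hκ1, hκ2⟩ := O.exists_max hX B hz
  obtain ⟨y, T⟩ := exists_bot hκ2 hκ1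
  have hyv := T.not_vertex
  have hyf := T.fixed hX O B
  -- the other end is the source
  have hsame : SamePoint 𝒜 p y := by
    by_contra hcon
    obtain ⟨χ, ⟨v, hv, hvw, hne⟩, hχ⟩ := H587.exists_neg_of_source hX hs hyv hyf hcon
    have := O.no_neg hX hN hq B hz T hχ hv hvw
    obtain ⟨d, m, h, -, h1⟩ := hne 0
    rw [this] at h1
    simp at h1
  have hμ : ν + κ • wt i₀ = μ := by
    obtain ⟨f, hf, hpf⟩ := exists_deg_one_ne hX.gen hs.1 hs.2.1
    obtain ⟨c, hc, hcy⟩ := hsame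
    have h1 : y f ≠ 0 := by
      rw [hcy 1 μ f hf]
      exact mul_ne_zero (pow_ne_zero _ hc) hpf
    have h2 := hyf 1 μ f hf h1
    rw [one_smul] at h2
    exact h2.symm
  refine ⟨z, κ, hκ, B, hμ.symm, ?_⟩
  intro f hf hpf
  obtain ⟨c, hc, hcy⟩ := hsame
  rw [← T.eq 1 μ f hf (by rw [hμ, one_smul]), hcy 1 μ f hf]
  exact mul_ne_zero (pow_ne_zero _ hc) hpf

theorem One.dvd_pow (hX : IsTorusManifold 𝒜) (O : One 𝒜 l q ν u wt i₀) {ψ : M} {b : R}
    (hb : b ∈ gr 𝒜 ν ψ) (j : ℕ) (hj : ∀ i < j, l (ψ - i • wt i₀) < 0) :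
    ∃ t ∈ gr 𝒜 ν 0, q t = 1 ∧ ∃ c ∈ gr 𝒜 ν (ψ - j • wt i₀), t * b = c * u i₀ ^ j := by
  induction j with
  | zero =>
    refine ⟨1, SetLike.one_mem_graded _, map_one q, b, ?_, by simp⟩
    rw [zero_smul, sub_zero]
    exact hb
  | succ j ih =>
    obtain ⟨t, ht0, ht1, c, hc, he⟩ := ih (fun i hi => hj i (by omega))
    obtain ⟨t', ht0', ht1', c', hc', he'⟩ := O.dvd hX (hj j (by omega)) hc
    refine ⟨t' * t, ?_, by rw [map_mul, ht1, ht1', one_mul], c', ?_, ?_⟩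
    · have := SetLike.mul_mem_graded ht0' ht0
      rwa [add_zero] at this
    · rw [add_smul, one_smul, ← sub_sub]
      exact hc'
    · rw [mul_assoc, he, ← mul_assoc, he', pow_succ]
      ring

/-- The order of `f` along the boundary, near `q`. -/
theorem One.form_f (hX : IsTorusManifold 𝒜) (hN : NefOnRationalCurves 𝒜)
    (hs : IsSource 𝒜 l p μ a) (hq : ¬ IsVertex 𝒜 q) (O : One 𝒜 l q ν u wt i₀)
    {f : R} (S : Src 𝒜 l p μ f) :
    ∃ (κ : ℕ) (t φ : R), μ = ν + (κ + 1) • wt i₀ ∧ q t = 1 ∧ q φ ≠ 0 ∧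
      t * f = φ * u i₀ ^ (κ + 1) := by
  obtain ⟨z, κ, hκ, B, hμ, hz⟩ := O.bottom hX hN hs hq
  obtain ⟨κ, rfl⟩ := Nat.exists_eq_succ_of_ne_zero hκ
  have hneg := O.neg
  have hf : f ∈ gr 𝒜 ν ((κ + 1) • wt i₀) := by
    have := mem_gr (ν := ν) S.mem
    rwa [one_smul, hμ, add_sub_cancel_left] at this
  obtain ⟨t, ht0, ht1, φ, hφ, he⟩ := O.dvd_pow hX hf (κ + 1) (by
    intro i hi
    have h2 : (i : ℤ) + 1 ≤ (κ : ℤ) + 1 := by exact_mod_cast hi
    rw [map_sub, map_nsmul, map_nsmul, nsmul_eq_mul, nsmul_eq_mul]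
    push_cast
    nlinarith)
  rw [sub_self] at hφ
  have hqφ : q φ ≠ 0 := by
    rw [← B.eq_gr (map_zero l) hφ]
    intro h0
    have h1 := congrArg z he
    rw [map_mul, map_mul, h0, zero_mul, B.eq_gr (map_zero l) ht0, ht1, one_mul] at h1
    exact hz f S.mem (by rw [S.pf]; exact one_ne_zero) h1
  exact ⟨κ, t, φ, hμ, ht1, hqφ, he⟩

/-- The coordinates have at most simple poles along the boundary, near `q`. -/
theorem One.forms (hX : IsTorusManifold 𝒜) (hN : NefOnRationalCurves 𝒜)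
    (hs : IsSource 𝒜 l p μ a) (hq : ¬ IsVertex 𝒜 q) (O : One 𝒜 l q ν u wt i₀)
    {f : R} {ι : Type} [Fintype ι] [DecidableEq ι] {x : ι → R} {χ : ι → M}
    {D : ι → Derivation ℂ R R} (F : Frame 𝒜 l p μ f x χ D)
    (hχ : ∀ k, l (χ k) + 2 * l (wt i₀) < 0) :
    ∃ (κ : ℕ) (t φ : R) (ξ : ι → R), q t = 1 ∧ q φ ≠ 0 ∧ t * f = φ * u i₀ ^ (κ + 1) ∧
      ∀ k, t * x k = ξ k * u i₀ ^ κ := by
  obtain ⟨κ, t, φ, hμ, ht1, hqφ, he⟩ := O.form_f hX hN hs hq F.src
  have hneg := O.neg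
  have hk : ∀ k, ∃ s, q s = 1 ∧ ∃ c, s * x k = c * u i₀ ^ κ := by
    intro k
    have hx : x k ∈ gr 𝒜 ν ((κ + 1) • wt i₀ + χ k) := by
      have := mem_gr (ν := ν) (F.mem k)
      rwa [one_smul, hμ, add_assoc, add_sub_cancel_left] at this
    obtain ⟨s, -, hs1, c, -, hc⟩ := O.dvd_pow hX hx κ (by
      intro i hi
      have h1 := hχ k
      have h2 : (i : ℤ) + 1 ≤ (κ : ℤ) := by exact_mod_cast hi
      rw [map_sub, map_add, map_nsmul, map_nsmul, nsmul_eq_mul, nsmul_eq_mul]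
      push_cast
      nlinarith)
    exact ⟨s, hs1, c, hc⟩
  choose s hs1 c hc using hk
  refine ⟨κ, t * ∏ j, s j, φ * ∏ j, s j, fun k => c k * t * ∏ j ∈ Finset.univ.erase k, s j,
    ?_, ?_, ?_, ?_⟩
  · rw [map_mul, ht1, one_mul, map_prod]
    exact Finset.prod_eq_one fun j _ => hs1 j
  · rw [map_mul, map_prod, Finset.prod_eq_one fun j _ => hs1 j, mul_one]
    exact hqφ
  · linear_combination (∏ j, s j) * he
  · intro k
    rw [← Finset.mul_prod_erase Finset.univ s (Finset.mem_univ k)]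
    linear_combination (t * ∏ j ∈ Finset.univ.erase k, s j) * hc k

theorem der_sum_apply {ι : Type} (s : Finset ι) (g : ι → Derivation ℂ R R) (h : R) :
    (∑ k ∈ s, g k) h = ∑ k ∈ s, g k h := by
  classical
  induction s using Finset.induction_on with
  | empty => simp
  | insert i s hi ih => rw [Finset.sum_insert hi, Finset.sum_insert hi, Derivation.add_apply, ih]

section frame
variable {f : R} {ι : Type} [Fintype ι] [DecidableEq ι] {x : ι → R} {χ : ι → M}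
  {D : ι → Derivation ℂ R R}

/-- Each derivation is a combination of the partial derivatives and the Euler derivation. -/
theorem Frame.expand (F : Frame 𝒜 l p μ f x χ D) {Eu : Derivation ℂ R R}
    (hEu : ∀ d m, ∀ h ∈ 𝒜 (d, m), Eu h = (d : ℂ) • h) (Δ : Derivation ℂ R R) (h : R) :
    f ^ 2 * Δ h = ∑ k, (f * Δ (x k) - x k * Δ f) * D k h + f * Δ f * Eu h := by
  have hEf : Eu f = f := by
    rw [hEu 1 μ f F.src.mem, Nat.cast_one, one_smul]
  have hEx : ∀ j, Eu (x j) = x j := by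
    intro j
    rw [hEu 1 _ _ (F.mem j), Nat.cast_one, one_smul]
  have h0 : f ^ 2 • Δ - ∑ k, (f * Δ (x k) - x k * Δ f) • D k - (f * Δ f) • Eu = 0 := by
    refine F.uniq _ ?_ ?_
    · simp only [Derivation.sub_apply, Derivation.smul_apply, der_sum_apply, smul_eq_mul,
        F.D_f, mul_zero, Finset.sum_const_zero, hEf]
      ring
    · intro j
      simp only [Derivation.sub_apply, Derivation.smul_apply, der_sum_apply, smul_eq_mul,
        F.D_x, mul_ite, mul_zero, Finset.sum_ite_eq', Finset.mem_univ, if_true, hEx]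
      ring
  have h1 := congrArg (fun E : Derivation ℂ R R => E h) h0
  simp only [Derivation.sub_apply, Derivation.smul_apply, der_sum_apply, smul_eq_mul,
    Derivation.coe_zero, Pi.zero_apply] at h1
  linear_combination h1

/-- A derivation transversal to the boundary shows that the field `∑ ξ k • D k` vanishes on it. -/
theorem Frame.transversal [IsDomain R] (F : Frame 𝒜 l p μ f x χ D) {κ : ℕ} {t φ u0 : R}
    {ξ : ι → R} (ht0 : t ≠ 0) (htf : t * f = φ * u0 ^ (κ + 1))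
    (htx : ∀ k, t * x k = ξ k * u0 ^ κ) (Δ : Derivation ℂ R R) (h : R) :
    u0 ∣ t * Δ (φ * u0) * ∑ k, ξ k * D k h := by
  obtain ⟨Eu, hEu⟩ := H587.exists_euler 𝒜
  have hf0 := F.src.ne
  obtain ⟨w, hw⟩ : ∃ w, w = φ * u0 := ⟨_, rfl⟩
  rw [← hw]
  have e0 : ∀ k, x k * w = ξ k * f := by
    intro k
    apply mul_left_cancel₀ ht0
    rw [hw]
    linear_combination (φ * u0) * htx k - ξ k * htf
  have e1 : ∀ k, x k * Δ w + w * Δ (x k) = ξ k * Δ f + f * Δ (ξ k) := by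
    intro k
    have := congrArg Δ (e0 k)
    rwa [Derivation.leibniz, Derivation.leibniz, smul_eq_mul, smul_eq_mul, smul_eq_mul,
      smul_eq_mul] at this
  have e2 : ∀ k, w ^ 2 * (f * Δ (x k) - x k * Δ f) = f ^ 2 * (w * Δ (ξ k) - ξ k * Δ w) := by
    intro k
    linear_combination (w * f) * e1 k - (w * Δ f + f * Δ w) * e0 k
  have e3 := F.expand hEu Δ h
  have e4 : w ^ 2 * (f ^ 2 * Δ h) = f ^ 2 * (w * ∑ k, Δ (ξ k) * D k h - Δ w * ∑ k, ξ k * D k h) +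
      w ^ 2 * (f * Δ f * Eu h) := by
    rw [e3, mul_add, Finset.mul_sum, Finset.mul_sum, Finset.mul_sum, ← Finset.sum_sub_distrib,
      Finset.mul_sum]
    congr 1
    refine Finset.sum_congr rfl fun k _ => ?_
    linear_combination D k h * e2 k
  set S1 := ∑ k, Δ (ξ k) * D k h with hS1
  set W := ∑ k, ξ k * D k h with hW
  have e5 : w ^ 2 * (f * Δ h) = f * (w * S1 - Δ w * W) + w ^ 2 * (Δ f * Eu h) := by
    apply mul_left_cancel₀ hf0
    linear_combination e4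
  have e6 : t * Δ f + f * Δ t = φ * ((κ + 1 : ℕ) * u0 ^ κ * Δ u0) + u0 ^ (κ + 1) * Δ φ := by
    have := congrArg Δ htf
    rw [Derivation.leibniz, Derivation.leibniz, Derivation.leibniz_pow, smul_eq_mul, smul_eq_mul,
      smul_eq_mul, smul_eq_mul] at this
    simpa [mul_assoc] using this
  refine ⟨t * φ * S1 - φ ^ 2 * u0 * t * Δ h + (φ * u0 * t * Δ φ +
    (κ + 1 : ℕ) * t * φ ^ 2 * Δ u0 - φ ^ 2 * u0 * Δ t) * Eu h, ?_⟩
  have htf0 : t * f ≠ 0 := mul_ne_zero ht0 hf0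
  apply mul_left_cancel₀ htf0
  have e7 : w ^ 2 * (t * (t * Δ f)) = (t * f) * (u0 * (φ * u0 * t * Δ φ +
    (κ + 1 : ℕ) * t * φ ^ 2 * Δ u0 - φ ^ 2 * u0 * Δ t)) := by
    rw [hw]
    linear_combination (φ ^ 2 * u0 ^ 2 * t) * e6 - (φ * u0 * (u0 * t * Δ φ +
      (κ + 1 : ℕ) * t * φ * Δ u0)) * htf
  rw [hw] at e5 e7 ⊢
  linear_combination t ^ 2 * e5 + Eu h * e7

omit [Fintype ι] in
theorem Frame.e0 [IsDomain R] (_ : Frame 𝒜 l p μ f x χ D) {κ : ℕ} {t φ u0 : R}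
    {ξ : ι → R} (ht0 : t ≠ 0) (htf : t * f = φ * u0 ^ (κ + 1))
    (htx : ∀ k, t * x k = ξ k * u0 ^ κ) (k : ι) : x k * (φ * u0) = ξ k * f := by
  apply mul_left_cancel₀ ht0
  linear_combination (φ * u0) * htx k - ξ k * htf

/-- The Euler field has no pole at `q`. -/
theorem Frame.loc (hX : IsTorusManifold 𝒜) (hN : NefOnRationalCurves 𝒜)
    (hs : IsSource 𝒜 l p μ a) (F : Frame 𝒜 l p μ f x χ D)
    (hq : ¬ IsVertex 𝒜 q) (O : One 𝒜 l q ν u wt i₀) (hχ : ∀ k, l (χ k) + 2 * l (wt i₀) < 0)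
    (k : ℕ) (E : R →ₗ[ℂ] R)
    (hE : ∃ s ∈ gr 𝒜 ν 0, q s ≠ 0 ∧
      ∀ h, s * u i₀ ^ (k + 1) * (∑ k, x k • D k : Derivation ℂ R R) h = f ^ 1 * E h) :
    ∃ r, q r = 1 ∧ ∀ h, u i₀ ∣ r * E h := by
  have := hX.domain
  have := noeth hX
  obtain ⟨κ, t, φ, ξ, ht1, hφ, htf, htx⟩ := O.forms hX hN hs hq F hχ
  obtain ⟨s, -, hsq, hsE⟩ := hE
  obtain ⟨v, hv1, hv2, -, -⟩ := O.gens.exists_dual (fix_of_isFixed O.fix) O.ht.le
  obtain ⟨Δ, hΔ⟩ := H93.exists_der hX hq (hv1 i₀)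
  have ht0 : t ≠ 0 := by
    rintro rfl
    rw [map_zero] at ht1
    exact zero_ne_one ht1
  have hu0 := O.u_ne hX
  have hf0 := F.src.ne
  set r0 := t * Δ (φ * u i₀) with hr0
  have hqr0 : q r0 = q φ := by
    rw [hr0, map_mul, ht1, one_mul, Derivation.leibniz, smul_eq_mul, smul_eq_mul, map_add, map_mul,
      map_mul, O.gens.zero, zero_mul, add_zero, hΔ, hv2, if_pos rfl, mul_one]
  have hc : q φ * q φ ≠ 0 := mul_ne_zero hφ hφ
  refine ⟨(q φ * q φ)⁻¹ • (φ * r0), ?_, ?_⟩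
  · rw [map_smul, map_mul, hqr0, smul_eq_mul, inv_mul_cancel₀ hc]
  · intro h
    obtain ⟨y, hy⟩ := F.transversal ht0 htf htx Δ h
    have h1 : φ * u i₀ * (∑ k, x k • D k : Derivation ℂ R R) h = f * ∑ k, ξ k * D k h := by
      rw [der_sum_apply, Finset.mul_sum, Finset.mul_sum]
      refine Finset.sum_congr rfl fun k _ => ?_
      rw [Derivation.smul_apply, smul_eq_mul]
      linear_combination D k h * F.e0 ht0 htf htx k
    have h2 : φ * E h = s * u i₀ ^ k * ∑ k, ξ k * D k h := by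
      apply mul_left_cancel₀ (mul_ne_zero hf0 hu0)
      have := hsE h
      linear_combination (-(φ * u i₀)) * this + (s * u i₀ ^ (k + 1)) * h1
    have h3 : r0 * ∑ k, ξ k * D k h = u i₀ * y := hy
    rw [smul_mul_assoc, Algebra.smul_def]
    refine dvd_mul_of_dvd_right ⟨s * u i₀ ^ k * y, ?_⟩ _
    linear_combination r0 * h2 + (s * u i₀ ^ k) * h3

end frame

/-- **The Euler field of the cell of a pinched source is regular.** -/
theorem Frame.exists_field {r : ℕ} {R : Type} [CommRing R] [Algebra ℂ R]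
    {𝒜 : ℕ × (Fin r → ℤ) → Submodule ℂ R} [GradedAlgebra 𝒜]
    {l : (Fin r → ℤ) →+ ℤ} {p : R →ₐ[ℂ] ℂ} {μ : Fin r → ℤ} {a b : ℤ}
    (hX : IsTorusManifold 𝒜) (hN : NefOnRationalCurves 𝒜) (hs : IsSource 𝒜 l p μ a)
    (hG : Gap 𝒜 l b) (hab : a < 2 * b)
    {f : R} {ι : Type} [Fintype ι] [DecidableEq ι] {x : ι → R} {χ : ι → Fin r → ℤ}
    {D : ι → Derivation ℂ R R} (F : Frame 𝒜 l p μ f x χ D) :
    ∃ E : Derivation ℂ R R, (∀ d m, ∀ h ∈ 𝒜 (d, m), E h ∈ 𝒜 (d, m)) ∧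
      ∀ h, f * E h = ∑ k, x k * D k h := by
  have happ : ∀ h, (∑ k, x k • D k : Derivation ℂ R R) h = ∑ k, x k * D k h := by
    intro h
    rw [der_sum_apply]
    rfl
  have hD : ∀ (d : ℕ) (m : Fin r → ℤ), ∀ h ∈ 𝒜 (d, m),
      (∑ k, x k • D k : Derivation ℂ R R) h ∈ 𝒜 (d + 1, m + 1 • μ - 0) := by
    intro d m h hh
    rw [happ]
    refine Submodule.sum_mem _ fun k _ => ?_
    have h1 := SetLike.mul_mem_graded (F.mem k) (F.D_mem k d m h hh)
    have h2 : ((1, μ + χ k) + (d, m - χ k) : ℕ × (Fin r → ℤ)) = (d + 1, m + 1 • μ - 0) := by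
      rw [Prod.mk_add_mk, one_smul, sub_zero, add_comm 1 d]
      congr 1
      abel
    rwa [h2] at h1
  have hdiv : ∀ h, f ^ 1 ∣ (∑ k, x k • D k : Derivation ℂ R R) h := by
    refine extension hX (H587.lexHom l) (H587.lexHom_injective l) (fun χ => H587.lexHom_neg)
      F.src 1 _ hD ?_ ?_
    · intro m hm h hh
      obtain ⟨c, hc⟩ := F.src.span 1 m (by rw [one_smul, hm]) h hh
      rw [happ]
      refine Finset.sum_eq_zero fun k _ => ?_
      rw [hc, pow_one, (D k).map_smul, F.D_f, smul_zero, mul_zero]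
    · intro q ν hq _ n u wt i₀ O k E hE0 _ _
      refine F.loc hX hN hs hq O ?_ k E hE0
      intro k
      have h1 := hG q ν n u wt i₀ hq O
      have h2 := (hs.2.2 _ (F.wt k)).2
      linarith
  obtain ⟨E, hE, hE'⟩ := exists_quot hX F.src hD hdiv
  refine ⟨E, ?_, ?_⟩
  · intro d m h hh
    have := hE d m h hh
    rwa [sub_zero] at this
  · intro h
    rw [← happ, hE', pow_one]

end Vale.Agent.P280.H63
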