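import Vale.Agent.P280.R2.H63.Loc
import Vale.Agent.P280.H587.CorC
import Vale.Agent.P280.H812.Parts

/-!
# P280: extension of rational derivations over the boundary of the cell
-/

open DirectSum Vale.Agent.P280.T Vale.Agent.P280.H127

namespace Vale.Agent.P280.H63

variable {M : Type} [AddCommGroup M] [DecidableEq M] {R : Type} [CommRing R] [Algebra ℂ R]
  {𝒜 : ℕ × M → Submodule ℂ R} [GradedAlgebra 𝒜] {l : M →+ ℤ} {p : R →ₐ[ℂ] ℂ} {μ : M} {a : ℤ}

/-- Data at the source. -/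
structure Src (𝒜 : ℕ × M → Submodule ℂ R) (l : M →+ ℤ) (p : R →ₐ[ℂ] ℂ) (μ : M) (f : R) :
    Prop where
  mem : f ∈ 𝒜 (1, μ)
  pf : p f = 1
  low : ∀ (d : ℕ) (m : M), ∀ h ∈ 𝒜 (d, m), h ≠ 0 → d • l μ ≤ l m
  span : ∀ (d : ℕ) (m : M), l m = d • l μ → ∀ h ∈ 𝒜 (d, m), ∃ c : ℂ, h = c • f ^ d

omit [DecidableEq M] [GradedAlgebra 𝒜] in
theorem Src.ne {f : R} (S : Src 𝒜 l p μ f) : f ≠ 0 := by
  rintro rfl
  have := S.pf
  rw [map_zero] at this
  exact zero_ne_one this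

theorem Src.pow_mem {f : R} (S : Src 𝒜 l p μ f) (N : ℕ) : f ^ N ∈ 𝒜 (N, N • μ) := by
  have h1 := SetLike.pow_mem_graded N S.mem
  have h2 : (N • ((1, μ) : ℕ × M)) = (N, N • μ) := by
    ext
    · simp
    · simp
  rwa [h2] at h1

theorem exists_src (hX : IsTorusManifold 𝒜) (hp : IsSource 𝒜 l p μ a) :
    ∃ f, Src 𝒜 l p μ f := by
  have hX' : IsTorusManifold (H587.co 𝒜 l) := H587.isTorusManifold_co hX
  obtain ⟨g, hg, hgp⟩ := exists_deg_one_ne hX.gen hp.1 hp.2.1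
  obtain ⟨h1, h2⟩ := H939.source_s2 hX' (H587.isSource_co hp)
  refine ⟨(p g)⁻¹ • g, Submodule.smul_mem _ _ hg, ?_, ?_, ?_⟩
  · rw [map_smul, smul_eq_mul, inv_mul_cancel₀ hgp]
  · intro d m h hh hne
    exact h1 d (l m) h (H587.mem_co hh) hne
  · intro d m hm h hh
    refine h2 ((p g)⁻¹ • g) (Submodule.smul_mem _ _ (H587.mem_co hg)) ?_ d h ?_
    · rw [map_smul, smul_eq_mul, inv_mul_cancel₀ hgp]
      exact one_ne_zero
    · rw [← hm]
      exact H587.mem_co hh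

/-- **Extension theorem.** If the rational derivation `D / f ^ N` has poles, they can be seen at a
fixed point of the torus with exactly one negative weight. -/
theorem extension (hX : IsTorusManifold 𝒜) {Γ : Type} [AddCommGroup Γ] [LinearOrder Γ]
    [IsOrderedAddMonoid Γ] (w : M →+ Γ) (hwi : Function.Injective w)
    (hwl : ∀ χ, l χ < 0 → w χ < 0) {f : R} (S : Src 𝒜 l p μ f) {χ : M} (N : ℕ) (D : Derivation ℂ R R)
    (hD : ∀ (d : ℕ) (m : M), ∀ h ∈ 𝒜 (d, m), D h ∈ 𝒜 (d + N, m + N • μ - χ))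
    (hD0 : ∀ m, l m = l μ → ∀ h ∈ 𝒜 (1, m), D h = 0)
    (hloc : ∀ (q : R →ₐ[ℂ] ℂ) (ν : M), ¬ IsVertex 𝒜 q → q f = 0 → ∀ (n : ℕ) (u : Fin n → R)
      (wt : Fin n → M) (i₀ : Fin n), One 𝒜 l q ν u wt i₀ → ∀ (k : ℕ) (E : R →ₗ[ℂ] R),
      (∃ s ∈ gr 𝒜 ν 0, q s ≠ 0 ∧ ∀ h, s * u i₀ ^ (k + 1) * D h = f ^ N * E h) →
      (∀ a b, E (a * b) = a * E b + b * E a) →
      (∀ ψ, ∀ h ∈ gr 𝒜 ν ψ, E h ∈ gr 𝒜 ν ((k + 1) • wt i₀ + (ψ - χ))) →
      ∃ r, q r = 1 ∧ ∀ h, u i₀ ∣ r * E h) :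
    ∀ h, f ^ N ∣ D h := by
  have := hX.finiteType
  have := hX.domain
  have := hX.normal
  have : IsNoetherianRing R := Algebra.FiniteType.isNoetherianRing ℂ R
  have hf := S.mem
  have hf0 := S.ne
  have hg : f ^ N ∈ 𝒜 (N, N • μ) := S.pow_mem N
  have hg0 : f ^ N ≠ 0 := pow_ne_zero N hf0
  have hgc : f ^ N ∈ cond (f ^ N) D := fun h => dvd_mul_right _ _
  suffices h1 : (1 : R) ∈ cond (f ^ N) D by
    intro h
    have := h1 h
    rwa [one_mul] at this
  by_contra hcon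
  by_cases hne : ∃ z : R →ₐ[ℂ] ℂ, (∀ x ∈ cond (f ^ N) D, z x = 0) ∧ ¬ IsVertex 𝒜 z
  · obtain ⟨γ, q, hqv, hqa, hfix, hslope, ν, hνγ, g1, hg1, hg1'⟩ := exists_lowest hX w
      (I := cond (f ^ N) D)
      (fun x hx i => cond_homogeneous (𝒜 := 𝒜) hg D.toLinearMap
        (fun i h hh => ⟨_, hD i.1 i.2 h hh⟩) hx i) hne
    have hfix' : IsFixed 𝒜 q ν := by
      intro d m h hh h0
      apply hwi
      rw [map_nsmul, hνγ]
      exact hfix d m h hh h0
    have hqf : q f = 0 := by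
      have h1 := hqa _ hgc
      rw [map_pow] at h1
      exact eq_zero_of_pow_eq_zero h1
    have hμν : l μ < l ν := by
      have h1 := S.low 1 ν g1 hg1 (fun h0 => hg1' (by rw [h0, map_zero]))
      rw [one_smul] at h1
      apply lt_of_le_of_ne h1
      intro h2
      obtain ⟨c, rfl⟩ := S.span 1 ν (by rw [one_smul, h2]) g1 hg1
      apply hg1'
      rw [pow_one, map_smul, hqf, smul_zero]
    have hDg : ∀ ψ, ∀ h ∈ gr 𝒜 ν ψ, D h ∈ gr 𝒜 ν (ψ + (N • μ - N • ν) - χ) := by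
      intro ψ h hh
      refine gr_ind (P := fun h => D h ∈ gr 𝒜 ν (ψ + (N • μ - N • ν) - χ)) ?_ ?_ ?_ hh
      · rw [map_zero]
        exact Submodule.zero_mem _
      · intro x y hx hy
        rw [map_add]
        exact Submodule.add_mem _ hx hy
      · intro d m hm x hx
        have h1 := mem_gr (ν := ν) (hD d m x hx)
        have h2 : m + N • μ - χ - (d + N) • ν = ψ + (N • μ - N • ν) - χ := by
          rw [hm, add_smul]
          abel
        rwa [h2] at h1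
    have hneg : ∀ ψ, l ψ < 0 → ∀ x ∈ gr 𝒜 ν ψ, x ∈ (cond (f ^ N) D).radical := by
      intro ψ hψ x hx
      refine gr_ind (P := fun x => x ∈ (cond (f ^ N) D).radical) ?_ ?_ ?_ hx
      · exact Ideal.zero_mem _
      · intro x y hx hy
        exact Ideal.add_mem _ hx hy
      · intro d m hm x hx
        by_contra h0
        have h1 := hslope d m x hx h0
        rw [hm, ← hνγ, map_add, map_nsmul] at h1
        have h2 := hwl ψ hψ
        have h3 : d • w ν + w ψ < d • w ν := by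
          calc d • w ν + w ψ < d • w ν + 0 := by gcongr
            _ = d • w ν := add_zero _
        exact absurd h1 (not_le.2 h3)
    have hfgr : f ∈ gr 𝒜 ν (μ - ν) := by
      have := mem_gr (ν := ν) hf
      rwa [one_smul] at this
    have hex : ∃ ψ, l ψ < 0 ∧ ∃ x ∈ gr 𝒜 ν ψ, x ≠ 0 := by
      refine ⟨μ - ν, ?_, f, hfgr, hf0⟩
      rw [map_sub]
      linarith
    obtain ⟨n, u, wt, i₀, O⟩ := exists_one hX hqv hfix' hg0 D hneg hqa hex
    have hggr : f ^ N ∈ gr 𝒜 ν (N • μ - N • ν) := mem_gr hg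
    refine no_pole hfix' (O.gens.hom i₀) (O.u_ne hX) hggr hg0 D hDg
      (hneg _ O.neg _ (O.gens.hom i₀)) hqa ?_
    exact hloc q ν hqv hqf n u wt i₀ O
  · push Not at hne
    by_cases hR : ∀ m, ∀ h ∈ 𝒜 (1, m), h ≠ 0 → l m = l μ
    · have hDz : ∀ x : R, D x = 0 := by
        intro x
        have hx : x ∈ Algebra.adjoin ℂ {h : R | ∃ m : M, h ∈ 𝒜 (1, m)} := by
          rw [hX.gen]; trivial
        induction hx using Algebra.adjoin_induction with
        | mem x hx =>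
          obtain ⟨m, hm⟩ := hx
          by_cases hx0 : x = 0
          · rw [hx0, map_zero]
          · exact hD0 m (hR m x hm hx0) x hm
        | algebraMap r => exact D.map_algebraMap r
        | add x y _ _ hx hy => rw [map_add, hx, hy, add_zero]
        | mul x y _ _ hx hy => rw [D.leibniz, hx, hy, smul_zero, smul_zero, add_zero]
      apply hcon
      intro h
      rw [hDz, mul_zero]
      exact dvd_zero _
    · push Not at hR
      obtain ⟨m1, h1, hh1, hne1, hm1⟩ := hR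
      have hle : cond (f ^ N) D ≠ ⊤ := fun h => hcon (h ▸ Submodule.mem_top)
      obtain ⟨P, hP, hPle⟩ := Ideal.exists_le_maximal _ hle
      obtain ⟨e, rfl⟩ := exists_hom P
      have hev : IsVertex 𝒜 e := hne e (fun x hx => mem_mx.1 (hPle hx))
      obtain ⟨Q, hQ, hQm⟩ := Ideal.exists_minimalPrimes_le hPle
      have hQp : Q.IsPrime := hQ.isPrime
      have hQe : Q = mx e := by
        by_contra hne'
        obtain ⟨z, hz, hze⟩ := exists_hom_ne hQp hne' hQm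
        apply hze
        have hzv : IsVertex 𝒜 z := hne z (fun x hx => mem_mx.1 (hz (hQ.1.2 hx)))
        apply algHom_ext_graded 𝒜
        rintro ⟨d, m⟩ x hx
        by_cases hd : d = 0
        · subst hd
          obtain ⟨c, rfl⟩ := hX.zero m x hx
          rw [AlgHom.commutes, AlgHom.commutes]
        · rw [hzv d m (Nat.pos_of_ne_zero hd) x hx, hev d m (Nat.pos_of_ne_zero hd) x hx]
      have hQh := cond_height hg0 D hQ
      rw [hQe] at hQh
      have hX' : IsTorusManifold (H587.co 𝒜 l) := H587.isTorusManifold_co hX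
      refine two_le_height hX' (H587.mem_co hf) hf0 ?_ (m1 := l m1) hm1 (H587.mem_co hh1) hne1
        (H587.isVertex_co.2 hev) hQh
      intro k h hh hne0
      obtain ⟨m, hm, h2, hh2, hne2⟩ := H587.exists_ne_of_co (B := R) LinearMap.id hh hne0
      have := S.low 1 m h2 hh2 hne2
      rwa [one_smul, hm] at this

/-- the local argument: no parameter has a weight which is large enough -/
theorem loc_of_gap (hX : IsTorusManifold 𝒜) {f : R} {χ : M} {N : ℕ} (D : Derivation ℂ R R)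
    {q : R →ₐ[ℂ] ℂ} {ν : M} {n : ℕ} {u : Fin n → R} {wt : Fin n → M} {i₀ : Fin n}
    (O : One 𝒜 l q ν u wt i₀) (hgap : ∀ i, l (wt i) + l (wt i₀) < l χ) (k : ℕ) (E : R →ₗ[ℂ] R)
    (_ : ∃ s ∈ gr 𝒜 ν 0, q s ≠ 0 ∧ ∀ h, s * u i₀ ^ (k + 1) * D h = f ^ N * E h)
    (hE : ∀ a b, E (a * b) = a * E b + b * E a)
    (hEd : ∀ ψ, ∀ h ∈ gr 𝒜 ν ψ, E h ∈ gr 𝒜 ν ((k + 1) • wt i₀ + (ψ - χ))) :
    ∃ r, q r = 1 ∧ ∀ h, u i₀ ∣ r * E h := by
  have := hX.domain
  have := hX.finiteType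
  have : IsNoetherianRing R := Algebra.FiniteType.isNoetherianRing ℂ R
  obtain ⟨s, -, hs, hsu⟩ := O.gens.gen
  refine step_of_params E hE hs hsu O.gens.zero ?_
  intro i
  refine O.dvd' hX (ψ := (k + 1) • wt i₀ + (wt i - χ)) ?_ (hEd _ _ (O.gens.hom i))
  rw [map_add, map_sub, map_nsmul, nsmul_eq_mul]
  have h1 := hgap i
  have h2 := O.neg
  push_cast
  nlinarith [(Nat.cast_nonneg k : (0 : ℤ) ≤ (k : ℤ))]

end Vale.Agent.P280.H63
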