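import Vale.Agent.P280.R2.H63.Euler

/-!
# P280: the gap if `R` is factorial, that is, if the Picard group of `X` is generated by `O(1)`
-/

open DirectSum Vale.Agent.P280.T Vale.Agent.P280.H127

namespace Vale.Agent.P280.H63

variable {M : Type} [AddCommGroup M] [DecidableEq M] {R : Type} [CommRing R] [Algebra ℂ R]
  {𝒜 : ℕ × M → Submodule ℂ R} [GradedAlgebra 𝒜] {l : M →+ ℤ} {p q : R →ₐ[ℂ] ℂ} {μ ν : M}
  {a b : ℤ}

/-- Elements of degree one are irreducible. -/
theorem irreducible_of_mem (hX : IsTorusManifold 𝒜) {f : R} (hf : f ∈ 𝒜 (1, μ)) (hf0 : f ≠ 0) :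
    Irreducible f := by
  have := hX.domain
  obtain ⟨ρ, hρ⟩ := exists_algHom 𝒜
    (fun i => ((Polynomial.monomial i.1 : R →ₗ[R] Polynomial R).restrictScalars ℂ))
    (by simp)
    (by
      rintro ⟨d, m⟩ ⟨d', m'⟩ a _ b _
      simp [Polynomial.monomial_mul_monomial])
  have hone : ∀ g, (ρ g).eval 1 = g := by
    intro g
    induction g using DirectSum.Decomposition.inductionOn 𝒜 with
    | zero => simp
    | homogeneous g =>
      rename_i i
      obtain ⟨g, hg⟩ := g
      change (ρ g).eval 1 = g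
      rw [hρ i g hg]
      simp
    | add g h hg hh => rw [map_add, Polynomial.eval_add, hg, hh]
  have hcoeff : ∀ g, ∃ c : ℂ, (ρ g).coeff 0 = algebraMap ℂ R c := by
    intro g
    induction g using DirectSum.Decomposition.inductionOn 𝒜 with
    | zero => exact ⟨0, by simp⟩
    | homogeneous g =>
      rename_i i
      obtain ⟨g, hg⟩ := g
      obtain ⟨d, m⟩ := i
      change ∃ c : ℂ, (ρ g).coeff 0 = algebraMap ℂ R c
      rw [hρ (d, m) g hg]
      by_cases hd : d = 0
      · subst hd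
        obtain ⟨c, rfl⟩ := hX.zero m g hg
        exact ⟨c, by simp⟩
      · exact ⟨0, by simp [Polynomial.coeff_monomial, hd]⟩
    | add g h hg hh =>
      obtain ⟨c, hc⟩ := hg
      obtain ⟨c', hc'⟩ := hh
      exact ⟨c + c', by rw [map_add, Polynomial.coeff_add, hc, hc', map_add]⟩
  have hunit : ∀ g, g ≠ 0 → (ρ g).natDegree = 0 → IsUnit g := by
    intro g hg0 hg
    obtain ⟨c, hc⟩ := hcoeff g
    have h1 : g = algebraMap ℂ R c := by
      have h2 := hone g
      rw [Polynomial.eq_C_of_natDegree_eq_zero hg, hc, Polynomial.eval_C] at h2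
      exact h2.symm
    have hc0 : c ≠ 0 := by
      rintro rfl
      rw [map_zero] at h1
      exact hg0 h1
    rw [h1]
    exact (isUnit_iff_ne_zero.2 hc0).map (algebraMap ℂ R)
  have hρf : (ρ f).natDegree = 1 := by
    rw [hρ (1, μ) f hf]
    exact Polynomial.natDegree_monomial_eq 1 hf0
  have hρ0 : ∀ g, g ≠ 0 → ρ g ≠ 0 := by
    intro g hg h0
    apply hg
    rw [← hone g, h0, Polynomial.eval_zero]
  refine ⟨?_, ?_⟩
  · intro hu
    obtain ⟨y, hy⟩ := hu.exists_right_inv
    have hy0 : y ≠ 0 := by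
      rintro rfl
      rw [mul_zero] at hy
      exact zero_ne_one hy
    have h1 := congrArg (fun g => (ρ g).natDegree) hy
    simp only [map_mul, map_one] at h1
    rw [Polynomial.natDegree_mul (hρ0 _ hf0) (hρ0 _ hy0), hρf, Polynomial.natDegree_one] at h1
    omega
  · intro g h hgh
    have hg0 : g ≠ 0 := by
      rintro rfl
      rw [zero_mul] at hgh
      exact hf0 hgh
    have hh0 : h ≠ 0 := by
      rintro rfl
      rw [mul_zero] at hgh
      exact hf0 hgh
    have h1 := congrArg (fun g => (ρ g).natDegree) hgh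
    simp only [map_mul] at h1
    rw [Polynomial.natDegree_mul (hρ0 _ hg0) (hρ0 _ hh0), hρf] at h1
    rcases Nat.eq_zero_or_pos (ρ g).natDegree with h2 | h2
    · exact Or.inl (hunit g hg0 h2)
    · exact Or.inr (hunit h hh0 (by omega))

/-- The gap if `R` is factorial. -/
theorem gap_of_ufd [IsDomain R] [UniqueFactorizationMonoid R] (hX : IsTorusManifold 𝒜)
    (hN : NefOnRationalCurves 𝒜) (hs : IsSource 𝒜 l p μ a)
    (hb : ∀ χ, TangentWeight 𝒜 p μ χ → b ≤ l χ) : Gap 𝒜 l b := by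
  intro q ν n u wt i₀ hq O
  obtain ⟨f, S⟩ := exists_src hX hs
  obtain ⟨κ, t, φ, hμ, ht, hφ, he⟩ := O.form_f hX hN hs hq S
  have hneg := O.neg
  have hμν : l μ < l ν := by
    rw [hμ, map_add, map_nsmul, nsmul_eq_mul]
    push_cast
    nlinarith [(Nat.cast_nonneg κ : (0 : ℤ) ≤ (κ : ℤ))]
  have hqf : q f = 0 := by
    by_contra h0
    have h1 := O.fix 1 μ f S.mem h0
    rw [one_smul] at h1
    rw [h1] at hμν
    exact lt_irrefl _ hμν
  have hpr : Prime f := (irreducible_of_mem hX S.mem S.ne).prime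
  have h1 : f ∣ φ * u i₀ ^ (κ + 1) := ⟨t, by rw [← he, mul_comm]⟩
  have h2 : f ∣ u i₀ := by
    rcases hpr.dvd_or_dvd h1 with h3 | h3
    · obtain ⟨y, hy⟩ := h3
      exact absurd (by rw [hy, map_mul, hqf, zero_mul]) hφ
    · exact hpr.dvd_of_dvd_pow h3
  obtain ⟨w, hw⟩ := h2
  have hκ : κ = 0 := by
    by_contra hκ
    obtain ⟨κ, rfl⟩ : ∃ k, κ = k + 1 := ⟨κ - 1, by omega⟩
    have h3 : t = φ * f ^ (κ + 1) * w ^ (κ + 2) := by
      apply mul_right_cancel₀ S.ne
      rw [he, hw]
      ring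
    rw [h3, map_mul, map_mul, map_pow, hqf] at ht
    simp at ht
  subst hκ
  rw [zero_add, one_smul] at hμ
  obtain ⟨g, hg, hgq⟩ := exists_deg_one_ne hX.gen hq O.fix
  by_contra hlt
  push Not at hlt
  have h4 : ν = 1 • μ + -wt i₀ := by
    rw [one_smul, hμ]
    abel
  rw [h4] at hg
  have h5 := small hX hs S hb (ψ := -wt i₀) (by rw [map_neg]; exact hlt) hg
  have h6 : p g = 0 := by
    by_contra h0
    have h7 := hs.2.1 1 _ g hg h0
    have h8 := congrArg l h7
    rw [map_add, map_neg] at h8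
    linarith
  rw [h6, zero_smul] at h5
  rw [h5, map_zero] at hgq
  exact hgq rfl

end Vale.Agent.P280.H63
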