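import Vale.Agent.P280.R2.H63.Homoth
import Vale.Agent.P280.R2.H63.Ufd

/-!
# P280: a pinched fixed point gives an action of `ℂ^*` by homotheties: conclusion
-/

open DirectSum Vale.Agent.P280.T Vale.Agent.P280.H127 Polynomial

namespace Vale.Agent.P280.H63

section refine
variable {M : Type} [AddCommGroup M] [DecidableEq M] {R : Type} [CommRing R] [Algebra ℂ R]
  {A : ℕ → Submodule ℂ R} {𝒜 : ℕ × M → Submodule ℂ R}

theorem ref_sub (hr : ∀ d, A d = ⨆ m : M, 𝒜 (d, m)) {d : ℕ} {W : Submodule ℂ R}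
    (h : ∀ m : M, 𝒜 (d, m) ≤ W) : A d ≤ W := (hr d).le.trans (iSup_le h)

theorem ref_le (hr : ∀ d, A d = ⨆ m : M, 𝒜 (d, m)) (d : ℕ) (m : M) : 𝒜 (d, m) ≤ A d := by
  rw [hr d]
  exact le_iSup (fun m => 𝒜 (d, m)) m

theorem ref_isVertex (hr : ∀ d, A d = ⨆ m : M, 𝒜 (d, m)) {p : R →ₐ[ℂ] ℂ} :
    T.IsVertex 𝒜 p ↔ S.IsVertex A p := by
  constructor
  · intro hp d hd h hh
    have h1 : A d ≤ LinearMap.ker p.toLinearMap := ref_sub hr fun m x hx => hp d m hd x hx
    exact h1 hh
  · intro hp d m hd h hh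
    exact hp d hd h (ref_le hr d m hh)

theorem ref_isTorusManifold (hr : ∀ d, A d = ⨆ m : M, 𝒜 (d, m))
    (hX : S.IsProjectiveManifold A) : T.IsTorusManifold 𝒜 where
  finiteType := hX.finiteType
  domain := hX.domain
  normal := hX.normal
  zero := fun m h hh => hX.zero h (ref_le hr 0 m hh)
  gen := by
    rw [← top_le_iff, ← hX.gen]
    refine Algebra.adjoin_le fun h hh => ?_
    have h1 : A 1 ≤ Subalgebra.toSubmodule
        (Algebra.adjoin ℂ {h : R | ∃ m : M, h ∈ 𝒜 (1, m)}) :=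
      ref_sub hr fun m x hx => Algebra.subset_adjoin ⟨m, hx⟩
    exact h1 hh
  nonempty := by
    obtain ⟨p, hp⟩ := hX.nonempty
    exact ⟨p, fun h => hp ((ref_isVertex hr).1 h)⟩
  smooth := fun p hp P hP hPp => by
    have := hP
    exact hX.smooth p (fun h => hp ((ref_isVertex hr).2 h)) P hPp

theorem ref_nef (hr : ∀ d, A d = ⨆ m : M, 𝒜 (d, m)) (hN : S.NefOnRationalCurves A) :
    T.NefOnRationalCurves 𝒜 := by
  intro e φ h1 h2 a ha v hv
  have hc : S.IsCurve A e φ := by
    refine ⟨fun d h hh => ?_, fun b hb hver => h2 b hb ((ref_isVertex hr).2 hver)⟩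
    have h3 : A d ≤ (MvPolynomial.homogeneousSubmodule (Fin 2) ℂ (d * e)).comap φ.toLinearMap :=
      ref_sub hr fun m x hx => (MvPolynomial.mem_homogeneousSubmodule _ _).2 (h1 d m x hx)
    exact (MvPolynomial.mem_homogeneousSubmodule _ _).1 (h3 hh)
  obtain ⟨δ, hδ1, hδ2, hδ3⟩ := hN e φ hc a ha v hv
  exact ⟨δ, hδ1, fun d m h hh => hδ2 d h (ref_le hr d m hh), hδ3⟩

end refine

section
variable {M : Type} [AddCommGroup M] [DecidableEq M] {R : Type} [CommRing R] [Algebra ℂ R]
  {𝒜 : ℕ × M → Submodule ℂ R} [GradedAlgebra 𝒜] {l : M →+ ℤ} {p : R →ₐ[ℂ] ℂ} {μ : M} {a : ℤ}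
  {f : R} {ι : Type} [Fintype ι] [DecidableEq ι] {x : ι → R} {χ : ι → M}
  {D : ι → Derivation ℂ R R} {E : Derivation ℂ R R}

omit [GradedAlgebra 𝒜] in
/-- a derivation of degree zero commutes with the projections -/
theorem proj_comm {A : ℕ → Submodule ℂ R} [GradedAlgebra A] (hE : ∀ d, ∀ h ∈ A d, E h ∈ A d)
    (d : ℕ) (y : R) : E (decompose A y d : R) = (decompose A (E y) d : R) := by
  induction y using DirectSum.Decomposition.inductionOn A with
  | zero => simp
  | homogeneous y =>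
    rename_i e
    obtain ⟨y, hy⟩ := y
    change E (decompose A y d : R) = (decompose A (E y) d : R)
    by_cases hde : e = d
    · subst hde
      rw [decompose_of_mem_same A hy, decompose_of_mem_same A (hE e y hy)]
    · rw [decompose_of_mem_ne A hy hde, decompose_of_mem_ne A (hE e y hy) hde, map_zero]
  | add y z hy hz => rw [decompose_add, DirectSum.add_apply, Submodule.coe_add, map_add, hy, hz,
      map_add, decompose_add, DirectSum.add_apply, Submodule.coe_add]

theorem Frame.hasHomothety {A : ℕ → Submodule ℂ R} [GradedAlgebra A]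
    (hX' : S.IsProjectiveManifold A) (hr : ∀ d, A d = ⨆ m : M, 𝒜 (d, m))
    (hs : IsSource 𝒜 l p μ a) (F : Frame 𝒜 l p μ f x χ D)
    (hE : ∀ d m, ∀ h ∈ 𝒜 (d, m), E h ∈ 𝒜 (d, m)) (hfE : ∀ h, f * E h = ∑ k, x k * D k h) :
    S.HasHomothety A := by
  have hX : IsTorusManifold 𝒜 := ref_isTorusManifold hr hX'
  have := hX.domain
  have hpos : ∀ k, 0 < l (χ k) := fun k => (hs.2.2 _ (F.wt k)).1
  have hEA : ∀ d, ∀ h ∈ A d, E h ∈ A d := by
    intro d h hh
    have h1 : A d ≤ (A d).comap (E : R →ₗ[ℂ] R) :=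
      ref_sub hr fun m y hy => ref_le hr d m (hE d m y hy)
    exact h1 hh
  have hx0 : ∀ k, p (x k) = 0 := by
    intro k
    by_contra hne
    have h1 := hs.2.1 1 _ _ (F.mem k) hne
    have h2 := congrArg l h1
    rw [map_add, one_smul] at h2
    linarith [hpos k]
  -- diagonalisation
  have h1 : A 1 ≤ ⨆ m : ℤ, EV A E (1, m) := by
    intro h hh
    have key : (⨆ j : ℕ, Module.End.eigenspace (E : R →ₗ[ℂ] R) ((j : ℕ) : ℂ)) ≤
        (⨆ m : ℤ, EV A E (1, m)).comap (GradedAlgebra.proj A 1) := by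
      refine iSup_le fun j y hy => ?_
      rw [Submodule.mem_comap, GradedAlgebra.proj_apply]
      refine Submodule.mem_iSup_of_mem (j : ℤ) (mem_EV.2 ⟨SetLike.coe_mem _, ?_⟩)
      rw [Module.End.mem_eigenspace_iff] at hy
      have hy' : E y = (j : ℂ) • y := hy
      rw [proj_comm hEA, hy', decompose_smul, DirectSum.smul_apply, Submodule.coe_smul]
      norm_num
    have h2 : A 1 ≤ ⨆ j : ℕ, Module.End.eigenspace (E : R →ₗ[ℂ] R) ((j : ℕ) : ℂ) :=
      ref_sub hr fun m y hy => F.mem_iSup hfE hpos hy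
    have h3 := key (h2 hh)
    rwa [Submodule.mem_comap, GradedAlgebra.proj_apply, decompose_of_mem_same A hh] at h3
  have htop := EV_top hX'.gen h1
  refine ⟨EV A E, exists_graded htop, fun d => le_antisymm (le_iSup_EV htop d)
    (iSup_le fun m => inf_le_left), p, fun h => hs.1 ((ref_isVertex hr).2 h), ?_, ?_⟩
  · intro d m h hh hne
    obtain ⟨-, h2⟩ := mem_EV.1 hh
    have h3 := congrArg p (hfE h)
    rw [map_mul, F.src.pf, one_mul, map_sum, Finset.sum_eq_zero fun k _ => by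
      rw [map_mul, hx0, zero_mul], h2, map_smul, smul_eq_mul] at h3
    rcases mul_eq_zero.1 h3 with h3 | h3
    · rw [smul_zero]
      exact_mod_cast h3
    · exact absurd h3 hne
  · rintro k ⟨v, hv, hvw, hne⟩
    obtain ⟨Eu, hEu⟩ := H587.exists_euler 𝒜
    -- the weight
    have h4 : ∀ h, v (E h) = (k : ℂ) * v h := by
      intro h
      obtain ⟨hG⟩ := exists_graded htop
      induction h using DirectSum.Decomposition.inductionOn (EV A E) with
      | zero => simp
      | homogeneous y =>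
        rename_i i
        obtain ⟨y, hy⟩ := y
        obtain ⟨d, m⟩ := i
        change v (E y) = (k : ℂ) * v y
        by_cases h0 : v y = 0
        · rw [(mem_EV.1 hy).2, map_smul, h0, smul_zero, mul_zero]
        · have h5 := hvw d m y hy h0
          rw [smul_zero, zero_add] at h5
          subst h5
          rw [(mem_EV.1 hy).2, map_smul, smul_eq_mul]
      | add y z hy hz => rw [map_add, map_add, map_add, hy, hz, mul_add]
    by_contra hk
    have hk1 : ((k : ℤ) : ℂ) - 1 ≠ 0 := by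
      intro h
      apply hk
      have : (k : ℂ) = ((1 : ℤ) : ℂ) := by
        rw [Int.cast_one]
        linear_combination h
      exact_mod_cast this
    have h5 : ∀ j, v (x j) = 0 := by
      intro j
      have h6 := h4 (x j)
      rw [F.E_x hfE] at h6
      exact (mul_eq_zero.1 (by linear_combination -h6 : ((k : ℂ) - 1) * v (x j) = 0)).resolve_left
        hk1
    obtain ⟨d, m, h, hh, hne'⟩ := hne (v f)
    apply hne'
    rw [F.tangent hX hs.1 hx0 hv hEu h]
    simp only [h5, zero_mul, Finset.sum_const_zero, zero_add]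
    have h7 : Eu h = (d : ℂ) • h := by
      have h8 : A d ≤ Module.End.eigenspace (Eu : R →ₗ[ℂ] R) (d : ℂ) :=
        ref_sub hr fun m y hy => Module.End.mem_eigenspace_iff.2 (hEu d m y hy)
      exact Module.End.mem_eigenspace_iff.1 (h8 (mem_EV.1 hh).1)
    rw [h7, map_smul, smul_eq_mul]
    ring

end

/-- **Pinched fixed points.** `T_X` is nef, `p` is a fixed point of the torus, and a one-parameter
group `l` has all its weights at `p` in an interval `[b, a]` with `a < 2 b`; moreover any two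
different tangent weights of the torus at `p` are not proportional, or `R` is factorial. Then `X`
has a `ℂ^*`-action which is a homothety at `p`. -/
theorem hasHomothety_of_pinched {R : Type} [CommRing R] [Algebra ℂ R] {A : ℕ → Submodule ℂ R}
    [GradedAlgebra A] (hX : S.IsProjectiveManifold A) (hN : S.NefOnRationalCurves A) {r : ℕ}
    {𝒜 : ℕ × (Fin r → ℤ) → Submodule ℂ R} [GradedAlgebra 𝒜]
    (hr : ∀ d, A d = ⨆ m : Fin r → ℤ, 𝒜 (d, m)) {l : (Fin r → ℤ) →+ ℤ} {p : R →ₐ[ℂ] ℂ}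
    {μ : Fin r → ℤ} {a b : ℤ} (hp : ¬ S.IsVertex A p) (hfix : IsFixed 𝒜 p μ)
    (hw : ∀ χ, TangentWeight 𝒜 p μ χ → b ≤ l χ ∧ l χ ≤ a) (hab : a < 2 * b)
    (hnp : (∀ χ χ', TangentWeight 𝒜 p μ χ → TangentWeight 𝒜 p μ χ' →
      (∃ j k : ℕ, 0 < j ∧ 0 < k ∧ j • χ = k • χ') → χ = χ') ∨
      (IsDomain R ∧ UniqueFactorizationMonoid R)) : S.HasHomothety A := by
  have hX' : IsTorusManifold 𝒜 := ref_isTorusManifold hr hX
  have hN' : T.NefOnRationalCurves 𝒜 := ref_nef hr hN
  have hs : IsSource 𝒜 l p μ a := by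
    refine ⟨fun h => hp ((ref_isVertex hr).1 h), hfix, fun χ hχ => ⟨?_, (hw χ hχ).2⟩⟩
    have := hw χ hχ
    linarith
  have hb : ∀ χ, TangentWeight 𝒜 p μ χ → b ≤ l χ := fun χ hχ => (hw χ hχ).1
  have hG : Gap 𝒜 l b := by
    rcases hnp with hnp | ⟨h1, h2⟩
    · exact gap_of_np hX' hN' hs hnp hb
    · exact gap_of_ufd hX' hN' hs hb
  obtain ⟨f, ι, _, _, x, χ, D, F⟩ := exists_frame hX' hN' hs hG hb hab
  obtain ⟨E, hE, hfE⟩ := F.exists_field hX' hN' hs hG hab
  exact F.hasHomothety hX hr hs hE hfE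

end Vale.Agent.P280.H63
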