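import Vale.Agent.P280.R2.H63.Coord

/-!
# P280: the cell of a pinched source is an affine space with global partial derivatives
-/

open DirectSum Vale.Agent.P280.T Vale.Agent.P280.H127

namespace Vale.Agent.P280.H63

section
variable {M : Type} [AddCommGroup M] [DecidableEq M] {R : Type} [CommRing R] [Algebra ℂ R]
  {𝒜 : ℕ × M → Submodule ℂ R} [GradedAlgebra 𝒜] {l : M →+ ℤ} {p : R →ₐ[ℂ] ℂ} {μ : M} {a b : ℤ}

/-- Coordinates on the cell and the partial derivatives. -/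
structure Frame (𝒜 : ℕ × M → Submodule ℂ R) [GradedAlgebra 𝒜] (l : M →+ ℤ) (p : R →ₐ[ℂ] ℂ)
    (μ : M) (f : R) {ι : Type} [DecidableEq ι] (x : ι → R) (χ : ι → M)
    (D : ι → Derivation ℂ R R) : Prop where
  src : Src 𝒜 l p μ f
  mem : ∀ i, x i ∈ 𝒜 (1, μ + χ i)
  D_mem : ∀ i d m, ∀ h ∈ 𝒜 (d, m), D i h ∈ 𝒜 (d, m - χ i)
  D_x : ∀ i j, D i (x j) = if i = j then f else 0
  D_f : ∀ i, D i f = 0
  uniq : ∀ E : Derivation ℂ R R, E f = 0 → (∀ i, E (x i) = 0) → E = 0
  wt : ∀ i, TangentWeight 𝒜 p μ (χ i)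

/-- elements of weight smaller than all the weights at the source -/
theorem small (hX : IsTorusManifold 𝒜) (hs : IsSource 𝒜 l p μ a) {f : R} (S : Src 𝒜 l p μ f)
    (hb : ∀ χ, TangentWeight 𝒜 p μ χ → b ≤ l χ) {d : ℕ} {ψ : M} (hψ : l ψ < b) {h : R}
    (hh : h ∈ 𝒜 (d, d • μ + ψ)) : h = p h • f ^ d := by
  have := noeth hX
  have := hX.domain
  rcases lt_trichotomy (l ψ) 0 with h0 | h0 | h0
  · have h1 : h = 0 := by
      by_contra hne
      have := S.low _ _ h hh hne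
      rw [map_add, map_nsmul] at this
      linarith
    rw [h1, map_zero, zero_smul]
  · obtain ⟨c, hc⟩ := S.span d _ (by rw [map_add, map_nsmul, h0, add_zero]) h hh
    rw [hc, map_smul, map_pow, S.pf, one_pow, smul_eq_mul, mul_one]
  · have hF := fix_of_isFixed hs.2.1
    obtain ⟨n, u, wt, G, hn⟩ := exists_params_T hX hs.1 hF
    have h1 : gr 𝒜 μ ψ = ⊥ := by
      refine source hF G (C := {w | l w < 0 ∨ (0 < l w ∧ l w < b)}) (by simp) ?_
        (w := ψ) (Or.inr ⟨h0, hψ⟩)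
      intro w hw i
      by_cases hi : wt i = 0
      · rw [hi, sub_zero]
        exact hw
      · left
        have h2 := tangentWeight_of_wt hX hs.2.1 G hn hi
        have h3 := (hs.2.2 _ h2).1
        have h4 := hb _ h2
        rw [map_sub]
        rcases hw with hw | hw
        · linarith
        · linarith [hw.2]
    have h2 : h ∈ gr 𝒜 μ ψ := by
      have := mem_gr (ν := μ) hh
      rwa [add_sub_cancel_left] at this
    rw [h1, Submodule.mem_bot] at h2
    rw [h2, map_zero, zero_smul]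

end

theorem exists_frame {r : ℕ} {R : Type} [CommRing R] [Algebra ℂ R]
    {𝒜 : ℕ × (Fin r → ℤ) → Submodule ℂ R} [GradedAlgebra 𝒜]
    {l : (Fin r → ℤ) →+ ℤ} {p : R →ₐ[ℂ] ℂ} {μ : Fin r → ℤ} {a b : ℤ}
    (hX : IsTorusManifold 𝒜) (hN : NefOnRationalCurves 𝒜) (hs : IsSource 𝒜 l p μ a)
    (hG : Gap 𝒜 l b) (hb : ∀ χ, TangentWeight 𝒜 p μ χ → b ≤ l χ) (hab : a < 2 * b) :
    ∃ (f : R) (ι : Type) (_ : Fintype ι) (_ : DecidableEq ι) (x : ι → R) (χ : ι → Fin r → ℤ)
      (D : ι → Derivation ℂ R R), Frame 𝒜 l p μ f x χ D := by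
  obtain ⟨f, S⟩ := exists_src hX hs
  obtain ⟨n, x, m, v, hx, hv, hvx, hext⟩ := exists_coords1 hX hs.1
  have hw := dual_hasWeight hs.2.1 hx hv hvx hext
  have htw : ∀ i : {i : Fin n // m i ≠ μ}, TangentWeight 𝒜 p μ (m i - μ) := by
    intro i
    refine H587.tangentWeight_of_ne hs.2.1 (sub_ne_zero.2 i.2) (hv i) (hw i) 1 (m i) (hx i) ?_
    rw [hvx, if_pos rfl]
    exact one_ne_zero
  have hD : ∀ i : {i : Fin n // m i ≠ μ}, ∃ D : Derivation ℂ R R,
      (∀ d k, ∀ h ∈ 𝒜 (d, k), D h ∈ 𝒜 (d, k - (m i - μ))) ∧ ∀ h, p (D h) = v i h := by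
    intro i
    refine gap_lift hX hN hs hG (htw i) ?_ (hv i) (hw i)
    have := hb _ (htw i)
    linarith
  choose D hD1 hD2 using hD
  refine ⟨f, {i : Fin n // m i ≠ μ}, inferInstance, inferInstance, fun i => x i,
    fun i => m i - μ, D, S, ?_, hD1, ?_, ?_, ?_, htw⟩
  · intro i
    have h1 : μ + (m i - μ) = m i := by abel
    change x i ∈ 𝒜 (1, μ + (m i - μ))
    rw [h1]
    exact hx i
  · intro i j
    change D i (x j) = _
    have h1 := hD1 i 1 (m j) (x j) (hx j)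
    have h2 : m j - (m i - μ) = 1 • μ + ((m j - μ) - (m i - μ)) := by
      rw [one_smul]
      abel
    rw [h2] at h1
    have h3 := small hX hs S hb (by
      rw [map_sub]
      have h4 := (hs.2.2 _ (htw j)).2
      have h5 := hb _ (htw i)
      linarith) h1
    rw [h3, hD2, hvx, pow_one]
    by_cases hij : i = j
    · rw [if_pos hij, if_pos (by rw [hij]), one_smul]
    · rw [if_neg hij, if_neg (fun h => hij (Subtype.ext h)), zero_smul]
  · intro i
    by_contra hne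
    have h1 := S.low _ _ _ (hD1 i 1 μ f S.mem) hne
    rw [map_sub l μ, one_smul] at h1
    have h5 := (hs.2.2 _ (htw i)).1
    linarith
  · intro E hEf hEx
    refine der_eq_zero hX hext E ?_
    intro j
    by_cases hj : m j = μ
    · obtain ⟨c, hc⟩ := S.span 1 (m j) (by rw [hj, one_smul]) (x j) (hx j)
      rw [hc, pow_one, E.map_smul, hEf, smul_zero]
    · exact hEx ⟨j, hj⟩

end Vale.Agent.P280.H63
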