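import Mathlib

/-! P280: the grading of a graded algebra by the eigenvalues of a derivation of degree zero. -/

open DirectSum Module

namespace Vale.Agent.P280.H63

variable {R : Type} [CommRing R] [Algebra ℂ R]

/-- The part of degree `d` of the eigenspace. -/
noncomputable def EV (A : ℕ → Submodule ℂ R) (E : Derivation ℂ R R) (i : ℕ × ℤ) :
    Submodule ℂ R :=
  A i.1 ⊓ End.eigenspace (E : R →ₗ[ℂ] R) ((i.2 : ℤ) : ℂ)

theorem mem_EV {A : ℕ → Submodule ℂ R} {E : Derivation ℂ R R} {d : ℕ} {m : ℤ} {x : R} :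
    x ∈ EV A E (d, m) ↔ x ∈ A d ∧ E x = (m : ℂ) • x := by
  rw [EV, Submodule.mem_inf, End.mem_eigenspace_iff]
  rfl

variable {A : ℕ → Submodule ℂ R} [GradedAlgebra A] {E : Derivation ℂ R R}

theorem EV_mul {i j : ℕ × ℤ} {a b : R} (ha : a ∈ EV A E i) (hb : b ∈ EV A E j) :
    a * b ∈ EV A E (i + j) := by
  obtain ⟨d, m⟩ := i
  obtain ⟨e, k⟩ := j
  rw [mem_EV] at ha hb
  change a * b ∈ EV A E (d + e, m + k)
  rw [mem_EV]
  refine ⟨SetLike.mul_mem_graded ha.1 hb.1, ?_⟩
  rw [Derivation.leibniz, ha.2, hb.2, smul_eq_mul, smul_eq_mul, mul_smul_comm, mul_smul_comm,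
    mul_comm b a, ← add_smul, add_comm (k : ℂ)]
  push_cast
  rfl

theorem EV_one : (1 : R) ∈ EV A E 0 := by
  change (1 : R) ∈ EV A E (0, 0)
  rw [mem_EV]
  refine ⟨SetLike.one_mem_graded A, ?_⟩
  rw [Derivation.map_one_eq_zero]
  simp

theorem EV_indep : iSupIndep (EV A E) := by
  have hG : iSupIndep fun m : ℤ => End.eigenspace (E : R →ₗ[ℂ] R) ((m : ℤ) : ℂ) :=
    (End.eigenspaces_iSupIndep (E : R →ₗ[ℂ] R)).comp Int.cast_injective
  rintro ⟨d, u⟩
  rw [Submodule.disjoint_def]
  intro x hx hx'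
  obtain ⟨h1, h2⟩ := Submodule.mem_inf.1 hx
  have key : (⨆ (j : ℕ × ℤ) (_ : j ≠ (d, u)), EV A E j) ≤
      (⨆ (w : ℤ) (_ : w ≠ u), End.eigenspace (E : R →ₗ[ℂ] R) ((w : ℤ) : ℂ)).comap
        (GradedAlgebra.proj A d) := by
    refine iSup₂_le ?_
    rintro ⟨e, w⟩ hne y hy
    obtain ⟨h3, h4⟩ := Submodule.mem_inf.1 hy
    rw [Submodule.mem_comap, GradedAlgebra.proj_apply]
    by_cases hed : e = d
    · subst hed
      have hwu : w ≠ u := fun h => hne (by rw [h])
      rw [decompose_of_mem_same A h3]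
      exact Submodule.mem_iSup_of_mem w (Submodule.mem_iSup_of_mem hwu h4)
    · rw [decompose_of_mem_ne A h3 hed]
      exact Submodule.zero_mem _
  have h5 := key hx'
  rw [Submodule.mem_comap, GradedAlgebra.proj_apply, decompose_of_mem_same A h1] at h5
  exact (Submodule.disjoint_def.1 (hG u)) x h2 h5

theorem EV_top (hgen : Algebra.adjoin ℂ {h : R | h ∈ A 1} = ⊤)
    (h1 : A 1 ≤ ⨆ m : ℤ, EV A E (1, m)) : iSup (EV A E) = ⊤ := by
  have hone : (1 : R) ∈ iSup (EV A E) := Submodule.mem_iSup_of_mem 0 EV_one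
  have hmul : ∀ x y, x ∈ iSup (EV A E) → y ∈ iSup (EV A E) → x * y ∈ iSup (EV A E) := by
    have : iSup (EV A E) * iSup (EV A E) ≤ iSup (EV A E) := by
      rw [Submodule.iSup_mul]
      refine iSup_le fun i => ?_
      rw [Submodule.mul_iSup]
      refine iSup_le fun j => ?_
      rw [Submodule.mul_le]
      intro a ha b hb
      exact Submodule.mem_iSup_of_mem (i + j) (EV_mul ha hb)
    exact fun x y hx hy => this (Submodule.mul_mem_mul hx hy)
  have hle : Algebra.adjoin ℂ {h : R | h ∈ A 1} ≤ (iSup (EV A E)).toSubalgebra hone hmul := by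
    refine Algebra.adjoin_le fun h hh => ?_
    change h ∈ iSup (EV A E)
    have h2 : (⨆ m : ℤ, EV A E (1, m)) ≤ iSup (EV A E) :=
      iSup_le fun m => le_iSup (EV A E) (1, m)
    exact h2 (h1 hh)
  rw [hgen] at hle
  rw [eq_top_iff]
  intro x _
  exact hle Algebra.mem_top

theorem exists_graded (htop : iSup (EV A E) = ⊤) : Nonempty (GradedAlgebra (EV A E)) := by
  have hi : DirectSum.IsInternal (EV A E) :=
    DirectSum.isInternal_submodule_of_iSupIndep_of_iSup_eq_top EV_indep htop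
  have hm : SetLike.GradedMonoid (EV A E) :=
    { one_mem := EV_one
      mul_mem := fun _ _ _ _ ha hb => EV_mul ha hb }
  letI hd : DirectSum.Decomposition (EV A E) := hi.chooseDecomposition
  exact ⟨{ hm, hd with }⟩

theorem le_iSup_EV (htop : iSup (EV A E) = ⊤) (d : ℕ) : A d ≤ ⨆ m : ℤ, EV A E (d, m) := by
  intro x hx
  have key : iSup (EV A E) ≤ (⨆ m : ℤ, EV A E (d, m)).comap (GradedAlgebra.proj A d) := by
    refine iSup_le ?_
    rintro ⟨e, m⟩ y hy
    have hy1 : y ∈ A e := (mem_EV.1 hy).1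
    rw [Submodule.mem_comap, GradedAlgebra.proj_apply]
    by_cases hed : e = d
    · subst hed
      rw [decompose_of_mem_same A hy1]
      exact Submodule.mem_iSup_of_mem m hy
    · rw [decompose_of_mem_ne A hy1 hed]
      exact Submodule.zero_mem _
  have h5 := key (htop ▸ Submodule.mem_top : x ∈ iSup (EV A E))
  rwa [Submodule.mem_comap, GradedAlgebra.proj_apply, decompose_of_mem_same A hx] at h5

/-- The kernel of a product of different linear factors. -/
theorem mem_iSup_of_prod {f : End ℂ R} (S : Finset ℕ) {x : R}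
    (hx : Polynomial.aeval f (∏ j ∈ S, (Polynomial.X - Polynomial.C (j : ℂ))) x = 0) :
    x ∈ ⨆ j : ℕ, End.eigenspace f ((j : ℕ) : ℂ) := by
  classical
  induction S using Finset.induction_on generalizing x with
  | empty =>
    rw [Finset.prod_empty, map_one, End.one_apply] at hx
    rw [hx]
    exact Submodule.zero_mem _
  | insert i S hi ih =>
    rw [Finset.prod_insert hi] at hx
    have hc : IsCoprime (Polynomial.X - Polynomial.C ((i : ℕ) : ℂ))
        (∏ j ∈ S, (Polynomial.X - Polynomial.C ((j : ℕ) : ℂ))) := by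
      refine IsCoprime.prod_right fun j hj => ?_
      refine Polynomial.isCoprime_X_sub_C_of_isUnit_sub ?_
      rw [isUnit_iff_ne_zero, sub_ne_zero]
      intro h
      have : i = j := by exact_mod_cast h
      exact hi (this ▸ hj)
    have h1 : x ∈ LinearMap.ker (Polynomial.aeval f ((Polynomial.X - Polynomial.C ((i : ℕ) : ℂ)) *
        (∏ j ∈ S, (Polynomial.X - Polynomial.C ((j : ℕ) : ℂ))))) := hx
    rw [← Polynomial.sup_ker_aeval_eq_ker_aeval_mul_of_coprime _ hc] at h1
    obtain ⟨y, hy, z, hz, rfl⟩ := Submodule.mem_sup.1 h1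
    refine Submodule.add_mem _ ?_ (ih hz)
    refine Submodule.mem_iSup_of_mem i ?_
    rw [End.mem_eigenspace_iff]
    rw [LinearMap.mem_ker, map_sub, Polynomial.aeval_X, Polynomial.aeval_C,
      LinearMap.sub_apply, Module.algebraMap_end_apply, sub_eq_zero] at hy
    exact hy

end Vale.Agent.P280.H63
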