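import Vale.Agent.P280.R2.H63.Euler
import Vale.Agent.P280.R2.H63.Grad
import Vale.Agent.P280.S.H980.Sym

/-!
# P280: a pinched fixed point gives an action of `ℂ^*` by homotheties
-/

open DirectSum Vale.Agent.P280.T Vale.Agent.P280.H127 Polynomial

namespace Vale.Agent.P280.H63

section
variable {M : Type} [AddCommGroup M] [DecidableEq M] {R : Type} [CommRing R] [Algebra ℂ R]
  {𝒜 : ℕ × M → Submodule ℂ R} [GradedAlgebra 𝒜] {l : M →+ ℤ} {p : R →ₐ[ℂ] ℂ} {μ : M}
  {f : R} {ι : Type} [Fintype ι] [DecidableEq ι] {x : ι → R} {χ : ι → M}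
  {D : ι → Derivation ℂ R R} {E : Derivation ℂ R R}

theorem Frame.E_f [IsDomain R] (F : Frame 𝒜 l p μ f x χ D)
    (hfE : ∀ h, f * E h = ∑ k, x k * D k h) : E f = 0 := by
  apply mul_left_cancel₀ F.src.ne
  rw [hfE, mul_zero]
  exact Finset.sum_eq_zero fun k _ => by rw [F.D_f, mul_zero]

theorem Frame.E_x [IsDomain R] (F : Frame 𝒜 l p μ f x χ D)
    (hfE : ∀ h, f * E h = ∑ k, x k * D k h) (j : ι) : E (x j) = x j := by
  apply mul_left_cancel₀ F.src.ne
  rw [hfE]
  simp only [F.D_x, mul_ite, mul_zero, Finset.sum_ite_eq', Finset.mem_univ, if_true]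
  ring

theorem Frame.E_zero [IsDomain R] (F : Frame 𝒜 l p μ f x χ D)
    (hfE : ∀ h, f * E h = ∑ k, x k * D k h) {h : R} (hD : ∀ k, D k h = 0) : E h = 0 := by
  apply mul_left_cancel₀ F.src.ne
  rw [hfE, mul_zero]
  exact Finset.sum_eq_zero fun k _ => by rw [hD, mul_zero]

theorem Frame.comm [IsDomain R] (F : Frame 𝒜 l p μ f x χ D)
    (hfE : ∀ h, f * E h = ∑ k, x k * D k h) (k : ι) (h : R) :
    D k (E h) = E (D k h) + D k h := by
  have h0 : ⁅D k, E⁆ - D k = 0 := by
    refine F.uniq _ ?_ ?_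
    · rw [Derivation.sub_apply, Derivation.commutator_apply, F.E_f hfE, F.D_f, map_zero, map_zero]
      simp
    · intro j
      rw [Derivation.sub_apply, Derivation.commutator_apply, F.E_x hfE, F.D_x]
      split_ifs
      · rw [F.E_f hfE]
        simp
      · rw [map_zero]
        simp
  have h1 := congrArg (fun E : Derivation ℂ R R => E h) h0
  simp only [Derivation.sub_apply, Derivation.commutator_apply, Derivation.coe_zero,
    Pi.zero_apply] at h1
  linear_combination h1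

/-- the operator -/
noncomputable abbrev ev (E : Derivation ℂ R R) (P : ℂ[X]) : R →ₗ[ℂ] R :=
  Polynomial.aeval (R := ℂ) (A := Module.End ℂ R) (E : R →ₗ[ℂ] R) P

omit [AddCommGroup M] [DecidableEq M] in
theorem ev_lin (c : ℂ) (P : ℂ[X]) (h : R) :
    ev E ((X - C c) * P) h = E (ev E P h) - c • ev E P h := by
  rw [ev, map_mul, Module.End.mul_apply, map_sub, aeval_X, aeval_C, LinearMap.sub_apply,
    Module.algebraMap_end_apply]
  rfl

theorem Frame.prod_comm [IsDomain R] (F : Frame 𝒜 l p μ f x χ D)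
    (hfE : ∀ h, f * E h = ∑ k, x k * D k h) (k : ι) (S : Finset ℕ) (h : R) :
    D k (ev E (∏ j ∈ S, (X - C ((j + 1 : ℕ) : ℂ))) h) =
      ev E (∏ j ∈ S, (X - C (j : ℂ))) (D k h) := by
  classical
  induction S using Finset.induction_on with
  | empty => simp [ev]
  | insert i S hi ih =>
    rw [Finset.prod_insert hi, Finset.prod_insert hi, ev_lin, ev_lin, ← ih, map_sub,
      (D k).map_smul, F.comm hfE]
    push_cast
    rw [add_smul, one_smul]
    ring

theorem ev_mono {S T : Finset ℕ} (hST : S ⊆ T) {h : R}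
    (hS : ev E (∏ j ∈ S, (X - C (j : ℂ))) h = 0) :
    ev E (∏ j ∈ T, (X - C (j : ℂ))) h = 0 := by
  rw [← Finset.prod_sdiff hST, ev, map_mul, Module.End.mul_apply]
  change (Polynomial.aeval (R := ℂ) (A := Module.End ℂ R) (E : R →ₗ[ℂ] R) _) (ev E _ h) = 0
  rw [hS, map_zero]

theorem Frame.exists_prod [IsDomain R] (F : Frame 𝒜 l p μ f x χ D)
    (hfE : ∀ h, f * E h = ∑ k, x k * D k h) (hpos : ∀ k, 0 < l (χ k)) (n : ℕ) :
    ∀ (d : ℕ) (m : M), l m < d • l μ + n → ∀ h ∈ 𝒜 (d, m), ∃ S : Finset ℕ,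
      ev E (∏ j ∈ S, (X - C (j : ℂ))) h = 0 := by
  classical
  induction n with
  | zero =>
    intro d m hm h hh
    refine ⟨∅, ?_⟩
    have : h = 0 := by
      by_contra hne
      have := F.src.low d m h hh hne
      simp only [Nat.cast_zero, add_zero] at hm
      linarith
    rw [this, map_zero]
  | succ n ih =>
    intro d m hm h hh
    have hk : ∀ k, ∃ S : Finset ℕ, ev E (∏ j ∈ S, (X - C (j : ℂ))) (D k h) = 0 := by
      intro k
      refine ih d (m - χ k) ?_ _ (F.D_mem k d m h hh)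
      have := hpos k
      push_cast at hm
      rw [map_sub]
      linarith
    choose S hS using hk
    set T := Finset.univ.biUnion S with hT
    have hT' : ∀ k, ev E (∏ j ∈ T, (X - C (j : ℂ))) (D k h) = 0 := fun k =>
      ev_mono (Finset.subset_biUnion_of_mem S (Finset.mem_univ k)) (hS k)
    have h0 : E (ev E (∏ j ∈ T, (X - C ((j + 1 : ℕ) : ℂ))) h) = 0 :=
      F.E_zero hfE fun k => by rw [F.prod_comm hfE, hT']
    refine ⟨insert 0 (T.image (· + 1)), ?_⟩
    rw [Finset.prod_insert (by simp), Finset.prod_image (by simp), ev_lin, h0]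
    simp

/-- `E` is diagonalisable with eigenvalues `0, 1, 2, ...`. -/
theorem Frame.mem_iSup [IsDomain R] (F : Frame 𝒜 l p μ f x χ D)
    (hfE : ∀ h, f * E h = ∑ k, x k * D k h) (hpos : ∀ k, 0 < l (χ k)) {d : ℕ} {m : M} {h : R}
    (hh : h ∈ 𝒜 (d, m)) :
    h ∈ ⨆ j : ℕ, Module.End.eigenspace (E : R →ₗ[ℂ] R) ((j : ℕ) : ℂ) := by
  obtain ⟨S, hS⟩ := F.exists_prod hfE hpos ((l m - d • l μ).toNat + 1) d m (by
    have := Int.self_le_toNat (l m - d • l μ)
    push_cast
    linarith) h hh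
  exact mem_iSup_of_prod S hS

/-- At the source the fields give all tangent vectors. -/
theorem Frame.tangent (hX : IsTorusManifold 𝒜) (hp : ¬ IsVertex 𝒜 p)
    (hx : ∀ k, p (x k) = 0) (F : Frame 𝒜 l p μ f x χ D) {w : R →ₗ[ℂ] ℂ} (hw : IsTangent p w)
    {Eu : Derivation ℂ R R} (hEu : ∀ d m, ∀ h ∈ 𝒜 (d, m), Eu h = (d : ℂ) • h) (h : R) :
    w h = ∑ k, w (x k) * p (D k h) + w f * p (Eu h) := by
  obtain ⟨Δ, hΔ⟩ := H93.exists_der hX hp hw
  have h1 := congrArg p (F.expand hEu Δ h)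
  simp only [map_mul, map_pow, map_add, map_sum, map_sub, F.src.pf, hΔ, hx, one_pow, one_mul,
    zero_mul, sub_zero] at h1
  exact h1

end

end Vale.Agent.P280.H63
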