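import Vale.Agent.P280.R2.H63.Ext

/-!
# P280: lifting of tangent vectors at an isolated source, in the presence of a gap
-/

open DirectSum Vale.Agent.P280.T Vale.Agent.P280.H127

namespace Vale.Agent.P280.H63

variable {M : Type} [AddCommGroup M] [DecidableEq M] {R : Type} [CommRing R] [Algebra ℂ R]
  {𝒜 : ℕ × M → Submodule ℂ R} [GradedAlgebra 𝒜] {l : M →+ ℤ} {p : R →ₐ[ℂ] ℂ} {μ : M} {a : ℤ}

/-- The homogeneous components of a derivation. -/
theorem exists_comp (D : Derivation ℂ R R) (N : ℕ) (ψ : M) :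
    ∃ D' : Derivation ℂ R R, (∀ d m, ∀ h ∈ 𝒜 (d, m), D' h ∈ 𝒜 (d + N, m + ψ)) ∧
      ∀ d m, ∀ h ∈ 𝒜 (d, m), D' h = (decompose 𝒜 (D h) (d + N, m + ψ) : R) := by
  obtain ⟨F, hF⟩ := H587.exists_linearMap 𝒜
    (fun i : ℕ × M => (GradedAlgebra.proj 𝒜 (i.1 + N, i.2 + ψ)).comp D.toLinearMap)
  have hF' : ∀ d m, ∀ h ∈ 𝒜 (d, m), F h = (decompose 𝒜 (D h) (d + N, m + ψ) : R) := by
    intro d m h hh
    rw [hF (d, m) h hh]
    rfl
  have hL : ∀ x y : R, F (x * y) = x • F y + y • F x := by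
    intro a b
    let F1 : R →ₗ[ℂ] R →ₗ[ℂ] R := (LinearMap.mul ℂ R).compr₂ F
    let G : R →ₗ[ℂ] R →ₗ[ℂ] R :=
      (LinearMap.mul ℂ R).compl₁₂ LinearMap.id F +
        ((LinearMap.mul ℂ R).compl₁₂ LinearMap.id F).flip
    have hFG : F1 a b = G a b := by
      refine H587.bilin_ext 𝒜 (F := F1) (G := G) ?_ a b
      rintro ⟨d, m⟩ ⟨d', m'⟩ x hx y hy
      change F (x * y) = x * F y + y * F x
      have hxy : x * y ∈ 𝒜 (d + d', m + m') := SetLike.mul_mem_graded hx hy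
      rw [hF' _ _ _ hxy, hF' _ _ _ hx, hF' _ _ _ hy, D.leibniz, smul_eq_mul, smul_eq_mul,
        decompose_add, DirectSum.add_apply, Submodule.coe_add]
      have e1 : (d + d' + N, m + m' + ψ) = ((d, m) + (d' + N, m' + ψ) : ℕ × M) := by
        rw [Prod.mk_add_mk]
        congr 1
        · ring
        · abel
      have e2 : (d + d' + N, m + m' + ψ) = ((d', m') + (d + N, m + ψ) : ℕ × M) := by
        rw [Prod.mk_add_mk]
        congr 1
        · ring
        · abel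
      congr 1
      · rw [e1, coe_decompose_mul_add_of_left_mem 𝒜 hx]
      · rw [e2, coe_decompose_mul_add_of_left_mem 𝒜 hy]
    exact hFG
  refine ⟨Derivation.mk' F hL, ?_, ?_⟩
  · intro d m h hh
    change F h ∈ _
    rw [hF' d m h hh]
    exact SetLike.coe_mem _
  · intro d m h hh
    exact hF' d m h hh

/-- a tangent vector at the source is the value of a derivation of positive degree -/
theorem exists_pre (hX : IsTorusManifold 𝒜) (hs : IsSource 𝒜 l p μ a) {χ : M} (hχ : 0 < l χ)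
    {v : R →ₗ[ℂ] ℂ} (hv : IsTangent p v) (hw : HasWeight 𝒜 μ χ v) :
    ∃ (N : ℕ) (D : Derivation ℂ R R),
      (∀ (d : ℕ) (m : M), ∀ h ∈ 𝒜 (d, m), D h ∈ 𝒜 (d + N, m + N • μ - χ)) ∧
      ∀ h, p (D h) = v h := by
  obtain ⟨N, D1, h1, h2⟩ := H939.source_s3 (H587.isTorusManifold_co hX) (H587.isSource_co hs) hχ hv
    (H587.hasWeight_co hw)
  obtain ⟨D, h3, h4⟩ := exists_comp (𝒜 := 𝒜) D1 N (N • μ - χ)
  have h3' : ∀ (d : ℕ) (m : M), ∀ h ∈ 𝒜 (d, m), D h ∈ 𝒜 (d + N, m + N • μ - χ) := by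
    intro d m h hh
    have := h3 d m h hh
    rwa [← add_sub_assoc] at this
  refine ⟨N, D, h3', ?_⟩
  have key : p.toLinearMap.comp D.toLinearMap = v := by
    apply linearMap_ext_graded 𝒜
    rintro ⟨d, m⟩ h hh
    change p (D h) = v h
    by_cases hm : m = d • μ + χ
    · rw [h4 d m h hh, ← h2 h, H587.fixed_eq_component hs.2.1 (h1 d (l m) h (H587.mem_co hh))]
      have : m + (N • μ - χ) = (d + N) • μ := by rw [hm, add_smul]; abel
      rw [this]
    · have e1 : p (D h) = 0 := by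
        by_contra hne
        apply hm
        have := hs.2.1 (d + N) _ (D h) (h3' d m h hh) hne
        rw [add_smul] at this
        have h5 : m + N • μ - χ + χ - N • μ = d • μ + N • μ + χ - N • μ := by rw [this]
        have h6 : m + N • μ - χ + χ - N • μ = m := by abel
        rw [← h6, h5]
        abel
      have e2 : v h = 0 := by
        by_contra hne
        exact hm (hw d m h hh hne)
      rw [e1, e2]
  intro h
  exact LinearMap.congr_fun key h

/-- division of a homogeneous derivation -/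
theorem exists_quot (hX : IsTorusManifold 𝒜) {f : R} (S : Src 𝒜 l p μ f) {χ : M} {N : ℕ}
    {D : Derivation ℂ R R}
    (hD : ∀ (d : ℕ) (m : M), ∀ h ∈ 𝒜 (d, m), D h ∈ 𝒜 (d + N, m + N • μ - χ))
    (hdiv : ∀ h, f ^ N ∣ D h) : ∃ E : Derivation ℂ R R,
      (∀ (d : ℕ) (m : M), ∀ h ∈ 𝒜 (d, m), E h ∈ 𝒜 (d, m - χ)) ∧ ∀ h, D h = f ^ N * E h := by
  have := hX.domain
  have hg0 : f ^ N ≠ 0 := pow_ne_zero N S.ne
  obtain ⟨E, hE⟩ := H644.exists_div_derivation hg0 D hdiv
  refine ⟨E, ?_, hE⟩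
  intro d m h hh
  refine H644.mem_of_mul_mem_graded hg0 (S.pow_mem N) ?_
  rw [← hE]
  have h1 := hD d m h hh
  have h2 : ((N, N • μ) + (d, m - χ) : ℕ × M) = (d + N, m + N • μ - χ) := by
    rw [Prod.mk_add_mk]
    congr 1
    · ring
    · abel
  rw [h2]
  exact h1

/-- The negative weight of a fixed point of the torus with exactly one negative weight is at
most `-b`. -/
def Gap (𝒜 : ℕ × M → Submodule ℂ R) [GradedAlgebra 𝒜] (l : M →+ ℤ) (b : ℤ) : Prop :=
  ∀ (q : R →ₐ[ℂ] ℂ) (ν : M) (n : ℕ) (u : Fin n → R) (wt : Fin n → M) (i₀ : Fin n),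
    ¬ IsVertex 𝒜 q → One 𝒜 l q ν u wt i₀ → b ≤ -l (wt i₀)

/-- The gap in the case that no two different weights at the source are proportional. -/
theorem gap_of_np (hX : IsTorusManifold 𝒜) (hN : NefOnRationalCurves 𝒜)
    (hs : IsSource 𝒜 l p μ a)
    (hnp : ∀ χ χ', TangentWeight 𝒜 p μ χ → TangentWeight 𝒜 p μ χ' →
      (∃ j k : ℕ, 0 < j ∧ 0 < k ∧ j • χ = k • χ') → χ = χ') {b : ℤ}
    (hb : ∀ χ, TangentWeight 𝒜 p μ χ → b ≤ l χ) : Gap 𝒜 l b := by
  intro q ν n u wt i₀ hq O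
  rw [← map_neg]
  exact hb _ (O.tangentWeight hX hN hs hq hnp)

/-- **Theorem I⁺** (gap lifting): a tangent vector at the isolated source `p` whose weight exceeds
the difference of the largest weight and the gap is the value of a vector field. -/
theorem gap_lift {r : ℕ} {𝒜 : ℕ × (Fin r → ℤ) → Submodule ℂ R} [GradedAlgebra 𝒜]
    {l : (Fin r → ℤ) →+ ℤ} {μ : Fin r → ℤ}
    (hX : IsTorusManifold 𝒜) (hN : NefOnRationalCurves 𝒜) (hs : IsSource 𝒜 l p μ a) {b : ℤ}
    (hG : Gap 𝒜 l b) {χ : Fin r → ℤ} (hχ : TangentWeight 𝒜 p μ χ)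
    (hgap : a < l χ + b) {v : R →ₗ[ℂ] ℂ} (hv : IsTangent p v) (hw : HasWeight 𝒜 μ χ v) :
    ∃ D : Derivation ℂ R R, (∀ d m, ∀ h ∈ 𝒜 (d, m), D h ∈ 𝒜 (d, m - χ)) ∧
      ∀ h, p (D h) = v h := by
  have hpos := hs.2.2 χ hχ
  have ha : 0 < a := hpos.1.trans_le hpos.2
  obtain ⟨f, S⟩ := exists_src hX hs
  obtain ⟨N, D, hD, hDv⟩ := exists_pre hX hs hpos.1 hv hw
  have hdiv : ∀ h, f ^ N ∣ D h := by
    refine extension hX (H587.lexHom l) (H587.lexHom_injective l) (fun χ => H587.lexHom_neg) S N D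
      hD ?_ ?_
    · intro m hm h hh
      by_contra hne
      have h1 := S.low _ _ _ (hD 1 m h hh) hne
      rw [map_sub, map_add, map_nsmul, hm, add_smul, one_smul] at h1
      linarith [hpos.1]
    · intro q ν hq _ n u wt i₀ O k E hE0 hE hEd
      refine loc_of_gap hX D O ?_ k E hE0 hE hEd
      intro i
      have h1 := hG q ν n u wt i₀ hq O
      have h2 : l (wt i) ≤ a := by
        by_cases hi : wt i = 0
        · rw [hi, map_zero]
          exact ha.le
        · exact ((H812.theoremI_full hX hN ha hs hq O.fix).1 _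
            (tangentWeight_of_wt hX O.fix O.gens O.ht hi)).2
      linarith
  obtain ⟨E, hE, hE'⟩ := exists_quot hX S hD hdiv
  refine ⟨E, hE, ?_⟩
  intro h
  rw [← hDv, hE', map_mul, map_pow, S.pf, one_pow, one_mul]

end Vale.Agent.P280.H63
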