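import Vale.Agent.P280.R2.H63.Below
import Vale.Agent.P280.H644.Ind

/-!
# P280: the other end of the curve through a fixed point with one negative weight

If the tangent bundle is nef then the other end of the curve has no negative weight.
-/

open DirectSum Vale.Agent.P280.T Vale.Agent.P280.H127

namespace Vale.Agent.P280.H63

variable {M : Type} [AddCommGroup M] [DecidableEq M] {R : Type} [CommRing R] [Algebra ℂ R]
  {𝒜 : ℕ × M → Submodule ℂ R} [GradedAlgebra 𝒜]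

/-- degree -/
abbrev dgM (M : Type) [AddCommGroup M] : ℕ × M →+ ℕ := AddMonoidHom.fst ℕ M

/-- weight for `-l` -/
abbrev wlM (l : M →+ ℤ) : ℕ × M →+ ℤ := (-l).comp (AddMonoidHom.snd ℕ M)

omit [GradedAlgebra 𝒜] [DecidableEq M] in
theorem freeCurvesM (hN : NefOnRationalCurves 𝒜) : H644.FreeCurves 𝒜 (dgM M) := by
  intro e φ h1 h2 p hp v hv
  obtain ⟨δ, hδ, hδ', hv'⟩ := hN e φ (fun d m h hh => h1 (d, m) h hh) (fun a ha hver => by
    obtain ⟨i, hi, h, hh, hne⟩ := h2 a ha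
    exact hne (hver i.1 i.2 hi h hh)) p hp v hv
  exact ⟨δ, hδ, fun i h hh => hδ' i.1 i.2 h hh, hv'⟩

/-- the slope for `-l` -/
abbrev sl (l : M →+ ℤ) (μ : ℤ) : ℕ × M →+ ℤ := H644.slope (dgM M) (wlM l) μ

theorem sl_apply (l : M →+ ℤ) (μ : ℤ) (d : ℕ) (m : M) : sl l μ (d, m) = -l m - μ * d := by
  rw [H644.slope_apply]
  rfl

variable {l : M →+ ℤ} {q z : R →ₐ[ℂ] ℂ} {ν : M} {n : ℕ} {u : Fin n → R} {wt : Fin n → M}
  {i₀ : Fin n}

omit [GradedAlgebra 𝒜] in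
theorem Below.supp (B : Below 𝒜 l q z ν) : H644.Supp 𝒜 z (sl l (-l ν)) := by
  rintro ⟨d, m⟩ h hh hne
  have := B.le d m h hh hne
  rw [sl_apply]
  rw [nsmul_eq_mul] at this
  linarith

theorem Below.lim (hfix : IsFixed 𝒜 q ν) (B : Below 𝒜 l q z ν) : H644.lim 𝒜 B.supp = q := by
  refine algHom_ext_hom 𝒜 ?_
  rintro ⟨d, m⟩ h hh
  rw [H644.lim_mem 𝒜 B.supp hh]
  by_cases h0 : l m = d • l ν
  · rw [if_pos, B.eq d m h hh h0]
    rw [sl_apply, h0, nsmul_eq_mul]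
    ring
  · rw [if_neg]
    · by_contra hne
      apply h0
      rw [hfix d m h hh (fun h => hne h.symm), map_nsmul]
    · rw [sl_apply]
      intro h1
      apply h0
      rw [nsmul_eq_mul]
      linarith

/-- A derivation along `z` of positive slope which vanishes on `u i₀` is zero. -/
theorem One.der_zero (hX : IsTorusManifold 𝒜) (O : One 𝒜 l q ν u wt i₀) (B : Below 𝒜 l q z ν)
    {c : R →ₗ[ℂ] ℂ} (hc : H644.IsDer z c)
    (hpos : ∀ (d : ℕ) (m : M), ∀ h ∈ 𝒜 (d, m), c h ≠ 0 → l m < d • l ν) (h0 : c (u i₀) = 0) :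
    c = 0 := by
  have := noeth hX
  by_contra hne
  have hex : ∃ k : ℤ, ∃ i, ∃ h ∈ 𝒜 i, c h ≠ 0 ∧ sl l (-l ν) i = k := by
    by_contra hcon
    apply hne
    apply H644.ext_hom (𝒜 := 𝒜)
    intro i h hh
    by_contra h1
    exact hcon ⟨_, i, h, hh, h1, rfl⟩
  have hpos' : ∀ i, ∀ h ∈ 𝒜 i, c h ≠ 0 → 0 < sl l (-l ν) i := by
    rintro ⟨d, m⟩ h hh h1
    have := hpos d m h hh h1
    rw [nsmul_eq_mul] at this
    rw [sl_apply]
    linarith
  obtain ⟨k, ⟨i1, h1, hh1, hc1, hk1⟩, hmin⟩ := Int.exists_least_of_bdd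
    (P := fun k => ∃ i, ∃ h ∈ 𝒜 i, c h ≠ 0 ∧ sl l (-l ν) i = k)
    ⟨0, fun k ⟨i, h, hh, h1, h2⟩ => h2 ▸ (hpos' i h hh h1).le⟩ hex
  have hk : ∀ i, ∀ h ∈ 𝒜 i, c h ≠ 0 → k ≤ sl l (-l ν) i := fun i h hh h1 =>
    hmin _ ⟨i, h, hh, h1, rfl⟩
  have hkpos : 0 < k := hk1 ▸ hpos' i1 h1 hh1 hc1
  have hlead := H644.isDer_lead 𝒜 B.supp hc hk
  rw [B.lim O.fix] at hlead
  set v : R →ₗ[ℂ] ℂ := H644.tw 𝒜 fun i => if sl l (-l ν) i = k then c else 0 with hv
  obtain ⟨w, -, -, -, hw⟩ := O.gens.exists_dual (fix_of_isFixed O.fix) O.ht.le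
  have hvu : ∀ i, v (u i) = 0 := by
    intro i
    by_cases hi : l (wt i) = -k
    · have hi0 : i = i₀ := by
        by_contra h
        have := O.nonneg i h
        linarith
      subst hi0
      rw [← h0]
      refine gr_ind (P := fun x => v x = c x) (by rw [map_zero, map_zero])
        (fun a b ha hb => by rw [map_add, map_add, ha, hb]) ?_ (O.gens.hom i)
      intro d m hm h hh
      rw [hv, H644.tw_mem 𝒜 _ hh, if_pos]
      rw [sl_apply, hm, map_add, map_nsmul, hi, nsmul_eq_mul]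
      ring
    · refine gr_ind (P := fun x => v x = 0) (map_zero _)
        (fun a b ha hb => by rw [map_add, ha, hb, add_zero]) ?_ (O.gens.hom i)
      intro d m hm h hh
      rw [hv, H644.tw_mem 𝒜 _ hh, if_neg, LinearMap.zero_apply]
      rw [sl_apply, hm, map_add, map_nsmul, nsmul_eq_mul]
      intro h1
      apply hi
      linarith
  have hv0 : v = 0 := by
    rw [hw v hlead]
    exact Finset.sum_eq_zero fun i _ => by rw [hvu, zero_smul]
  have h2 := LinearMap.congr_fun hv0 h1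
  rw [hv, H644.tw_mem 𝒜 _ hh1, if_pos hk1] at h2
  exact hc1 (by simpa using h2)

/-- The derivation along `z` given by the weight. -/
noncomputable def wder (𝒜 : ℕ × M → Submodule ℂ R) [GradedAlgebra 𝒜] (l : M →+ ℤ)
    (z : R →ₐ[ℂ] ℂ) (ν : M) : R →ₗ[ℂ] ℂ :=
  H644.tw 𝒜 fun i => ((l i.2 - i.1 * l ν : ℤ) : ℂ) • z.toLinearMap

theorem wder_mem {d : ℕ} {m : M} {h : R} (hh : h ∈ 𝒜 (d, m)) :
    wder 𝒜 l z ν h = ((l m - d * l ν : ℤ) : ℂ) * z h := by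
  rw [wder, H644.tw_mem 𝒜 _ hh]
  rfl

theorem isDer_wder : H644.IsDer z (wder 𝒜 l z ν) := by
  refine H644.isDer_of_hom (𝒜 := 𝒜) ?_
  rintro ⟨d, m⟩ ⟨d', m'⟩ f hf g hg
  have hfg : f * g ∈ 𝒜 (d + d', m + m') := SetLike.mul_mem_graded hf hg
  rw [wder_mem hfg, wder_mem hf, wder_mem hg, map_mul, map_add]
  push_cast
  ring

theorem wder_gr {ψ : M} {b : R} (hb : b ∈ gr 𝒜 ν ψ) :
    wder 𝒜 l z ν b = ((l ψ : ℤ) : ℂ) * z b := by
  refine gr_ind (P := fun b => wder 𝒜 l z ν b = ((l ψ : ℤ) : ℂ) * z b) (by simp)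
    (fun a b ha hb => by rw [map_add, ha, hb, map_add, mul_add]) ?_ hb
  intro d m hm h hh
  rw [wder_mem hh, hm, map_add, map_nsmul, nsmul_eq_mul]
  congr 2
  ring

/-- Derivations along `z` of positive slope are multiples of the derivation given by the
weight. -/
theorem One.der_eq (hX : IsTorusManifold 𝒜) (O : One 𝒜 l q ν u wt i₀) (B : Below 𝒜 l q z ν)
    (hz : z ≠ q) {c : R →ₗ[ℂ] ℂ} (hc : H644.IsDer z c)
    (hpos : ∀ (d : ℕ) (m : M), ∀ h ∈ 𝒜 (d, m), c h ≠ 0 → l m < d • l ν) :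
    ∃ a : ℂ, c = a • wder 𝒜 l z ν := by
  have hu : wder 𝒜 l z ν (u i₀) ≠ 0 := by
    rw [wder_gr (O.gens.hom i₀)]
    exact mul_ne_zero (by exact_mod_cast O.neg.ne) (O.off hX B hz).1
  refine ⟨c (u i₀) / wder 𝒜 l z ν (u i₀), ?_⟩
  rw [← sub_eq_zero]
  refine O.der_zero hX B ?_ ?_ ?_
  · intro f g
    have h1 := hc f g
    have h2 := isDer_wder (𝒜 := 𝒜) (l := l) (z := z) (ν := ν) f g
    simp only [LinearMap.sub_apply, LinearMap.smul_apply, smul_eq_mul]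
    rw [h1, h2]
    ring
  · intro d m h hh hne
    by_contra hcon
    apply hne
    have h1 : c h = 0 := by
      by_contra h1
      exact hcon (hpos d m h hh h1)
    have h2 : wder 𝒜 l z ν h = 0 := by
      rw [wder_mem hh]
      by_cases h3 : z h = 0
      · rw [h3, mul_zero]
      · have h4 := B.le d m h hh h3
        have h5 : l m = d • l ν := le_antisymm h4 (not_lt.1 hcon)
        rw [h5, nsmul_eq_mul, sub_self, Int.cast_zero, zero_mul]
    rw [LinearMap.sub_apply, LinearMap.smul_apply, h1, h2, smul_zero, sub_zero]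
  · rw [LinearMap.sub_apply, LinearMap.smul_apply, smul_eq_mul, div_mul_cancel₀ _ hu, sub_self]

/-- The other end of the curve. -/
structure Bot (𝒜 : ℕ × M → Submodule ℂ R) (l : M →+ ℤ) (z y : R →ₐ[ℂ] ℂ) (ν' : M) : Prop where
  le : ∀ (d : ℕ) (m : M), ∀ h ∈ 𝒜 (d, m), z h ≠ 0 → d • l ν' ≤ l m
  one : ∃ h ∈ 𝒜 (1, ν'), z h ≠ 0
  eq : ∀ (d : ℕ) (m : M), ∀ h ∈ 𝒜 (d, m), l m = d • l ν' → y h = z h
  zero : ∀ (d : ℕ) (m : M), ∀ h ∈ 𝒜 (d, m), l m ≠ d • l ν' → y h = 0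

theorem exists_bot {ν' : M}
    (hle : ∀ (d : ℕ) (m : M), ∀ h ∈ 𝒜 (d, m), z h ≠ 0 → d • l ν' ≤ l m)
    (hone : ∃ h ∈ 𝒜 (1, ν'), z h ≠ 0) : ∃ y, Bot 𝒜 l z y ν' := by
  obtain ⟨y, h1, h2⟩ := exists_limit 𝒜 z (slopeHom l (l ν')) (by
    rintro ⟨d, m⟩ h hh hne
    rw [slopeHom_apply, sub_nonneg]
    exact hle d m h hh hne)
  refine ⟨y, hle, hone, fun d m h hh hm => h1 (d, m) h hh ?_, fun d m h hh hm =>
    h2 (d, m) h hh ?_⟩
  · rw [slopeHom_apply, hm, sub_self]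
  · rw [slopeHom_apply]
    exact sub_ne_zero.2 hm

omit [GradedAlgebra 𝒜] in
theorem Bot.supp {y : R →ₐ[ℂ] ℂ} {ν' : M} (T : Bot 𝒜 l z y ν') :
    H644.Supp 𝒜 z (-sl l (-l ν')) := by
  rintro ⟨d, m⟩ h hh hne
  have := T.le d m h hh hne
  rw [AddMonoidHom.neg_apply, sl_apply]
  rw [nsmul_eq_mul] at this
  linarith

theorem Bot.lim {y : R →ₐ[ℂ] ℂ} {ν' : M} (T : Bot 𝒜 l z y ν') : H644.lim 𝒜 T.supp = y := by
  refine algHom_ext_hom 𝒜 ?_
  rintro ⟨d, m⟩ h hh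
  rw [H644.lim_mem 𝒜 T.supp hh]
  by_cases h0 : l m = d • l ν'
  · rw [if_pos, T.eq d m h hh h0]
    rw [AddMonoidHom.neg_apply, sl_apply, h0, nsmul_eq_mul]
    ring
  · rw [if_neg, T.zero d m h hh h0]
    rw [AddMonoidHom.neg_apply, sl_apply]
    intro h1
    apply h0
    rw [nsmul_eq_mul]
    linarith

/-- **No negative weights at the other end.** -/
theorem One.no_neg (hX : IsTorusManifold 𝒜) (hN : NefOnRationalCurves 𝒜)
    (hq : ¬ IsVertex 𝒜 q) (O : One 𝒜 l q ν u wt i₀) (B : Below 𝒜 l q z ν) (hz : z ≠ q)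
    {y : R →ₐ[ℂ] ℂ} {ν' : M} (T : Bot 𝒜 l z y ν') {ψ : M} (hψ : l ψ < 0) {v : R →ₗ[ℂ] ℂ}
    (hv : IsTangent y v) (hvw : HasWeight 𝒜 ν' ψ v) : v = 0 := by
  obtain ⟨f, hf, hqf⟩ := exists_deg_one_ne hX.gen hq O.fix
  have hzf : z f ≠ 0 := by
    rw [B.eq 1 ν f hf (by rw [one_smul])]
    exact hqf
  have hνν : l ν' ≤ l ν := by
    have := T.le 1 ν f hf hzf
    rwa [one_smul] at this
  have h1 := T.one
  obtain ⟨f', hf', hzf'⟩ := h1
  have hv' : H644.IsDer (H644.lim 𝒜 T.supp) v := by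
    rw [T.lim]
    exact hv
  obtain ⟨c, hc, hcw, hcv⟩ := H644.exists_lift 𝒜 (freeCurvesM hN) (z := z) (μ := -l ν)
    (ν := -l ν') (by linarith) B.supp T.supp
    ⟨(1, ν), one_pos, by rw [sl_apply]; push_cast; ring, f, hf, hzf⟩
    ⟨(1, ν'), one_pos, by rw [sl_apply]; push_cast; ring, f', hf', hzf'⟩
    (w := -l ψ) hv' (by
      rintro ⟨d, m⟩ h hh hne
      have := hvw d m h hh hne
      change -l m = -l ν' * d + -l ψ
      rw [this, map_add, map_nsmul, nsmul_eq_mul]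
      ring)
  obtain ⟨a, ha⟩ := O.der_eq hX B hz hc (by
    intro d m h hh hne
    have := hcw (d, m) h hh hne
    rw [sl_apply] at this
    rw [nsmul_eq_mul]
    linarith)
  apply H644.ext_hom (𝒜 := 𝒜)
  rintro ⟨d, m⟩ h hh
  rw [LinearMap.zero_apply]
  by_contra hne
  have hm := hvw d m h hh hne
  have h2 := hcv (d, m) h hh (by
    change -l m = -l ν' * d + -l ψ
    rw [hm, map_add, map_nsmul, nsmul_eq_mul]
    ring)
  apply hne
  rw [← h2, ha, LinearMap.smul_apply, wder_mem hh]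
  have h3 : z h = 0 := by
    by_contra h3
    have := T.le d m h hh h3
    rw [hm, map_add, map_nsmul] at this
    linarith
  rw [h3, mul_zero, smul_zero]

end Vale.Agent.P280.H63
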