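import Vale.Agent.P280.R2.H63.Low
import Vale.Agent.P280.T.Ext3

/-!
# P280: poles of rational derivations at a fixed point of the torus
-/

open DirectSum Vale.Agent.P280.T Vale.Agent.P280.H127

namespace Vale.Agent.P280.H63

variable {M : Type} [AddCommGroup M] [DecidableEq M] {R : Type} [CommRing R] [Algebra ℂ R]
  {𝒜 : ℕ × M → Submodule ℂ R} [GradedAlgebra 𝒜] {l : M →+ ℤ} {q : R →ₐ[ℂ] ℂ} {ν : M}

/-- The lowest point of the set of poles has exactly one negative weight. -/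
theorem exists_one (hX : IsTorusManifold 𝒜) (hq : ¬ IsVertex 𝒜 q) (hfix : IsFixed 𝒜 q ν) {g : R}
    (hg0 : g ≠ 0) (D : Derivation ℂ R R)
    (hneg : ∀ ψ, l ψ < 0 → ∀ x ∈ gr 𝒜 ν ψ, x ∈ (cond g D).radical)
    (hqa : ∀ x ∈ cond g D, q x = 0) (hex : ∃ ψ, l ψ < 0 ∧ ∃ x ∈ gr 𝒜 ν ψ, x ≠ 0) :
    ∃ (n : ℕ) (u : Fin n → R) (wt : Fin n → M) (i₀ : Fin n), One 𝒜 l q ν u wt i₀ := by
  have := hX.finiteType
  have := hX.domain
  have := hX.normal
  have : IsNoetherianRing R := Algebra.FiniteType.isNoetherianRing ℂ R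
  have hF := fix_of_isFixed hfix
  have hr : IsRegularLocalRing (Localization.AtPrime (mx q)) := hX.smooth q hq (mx q) rfl
  obtain ⟨n, u, wt, G, hn⟩ := exists_params hF hr
  obtain ⟨v, hv1, hv2, hv3, hv4⟩ := G.exists_dual hF hn.le
  obtain ⟨i0, hi0⟩ : ∃ i, l (wt i) < 0 := by
    by_contra hcon
    push Not at hcon
    obtain ⟨w, hw, x, hx, hx0⟩ := hex
    have h1 := source hF G (C := {w | l w < 0}) (by simp) (by
      intro w hw i
      have h1 := hcon i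
      have h2 : l w < 0 := hw
      show l (w - wt i) < 0
      rw [map_sub]
      linarith) (w := w) hw
    have h3 : gr 𝒜 ν w = ⊥ := h1
    rw [h3] at hx
    exact hx0 ((Submodule.mem_bot ℂ).1 hx)
  refine ⟨n, u, wt, i0, hfix, G, hn, hi0, ?_⟩
  intro i1 hne
  by_contra hlt
  push Not at hlt
  have hle : cond g D ≤ mx q := fun x hx => mem_mx.2 (hqa x hx)
  obtain ⟨Q, hQ, hQm⟩ := Ideal.exists_minimalPrimes_le hle
  have hQp : Q.IsPrime := hQ.isPrime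
  have hQh : Q.height ≤ 1 := cond_height hg0 D hQ
  have hrad : (cond g D).radical ≤ Q := by
    rw [hQp.radical_le_iff]
    exact hQ.1.2
  have hu0Q : u i0 ∈ Q := hrad (hneg _ hi0 _ (G.hom i0))
  have hu1Q : u i1 ∈ Q := hrad (hneg _ hlt _ (G.hom i1))
  obtain ⟨t, y, ht, hty⟩ := local_principal hr (mem_mx.2 (G.zero i0)) (hv1 i0)
    (by rw [hv2 i0 i0, if_pos rfl]; exact one_ne_zero) hQp hQm hQh hu0Q hu1Q
  have h1 := congrArg (v i1) hty
  rw [tan_mul (hv1 i1) _ _ (G.zero i1), tan_mul (hv1 i1) _ _ (G.zero i0), hv2 i1 i1, hv2 i1 i0,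
    if_pos rfl, if_neg hne, mul_one, mul_zero] at h1
  exact ht h1

theorem One.u_ne (hX : IsTorusManifold 𝒜) {n : ℕ} {u : Fin n → R} {wt : Fin n → M} {i₀ : Fin n}
    (O : One 𝒜 l q ν u wt i₀) : u i₀ ≠ 0 := by
  have := noeth hX
  obtain ⟨v, -, hv2, -, -⟩ := O.gens.exists_dual (fix_of_isFixed O.fix) O.ht.le
  intro h
  have := hv2 i₀ i₀
  rw [h, map_zero] at this
  simp at this

/-- The order of the pole can be lowered: contradiction. -/
theorem no_pole [IsDomain R] (hfix : IsFixed 𝒜 q ν) {u0 : R} {ω χ γ : M} (hu : u0 ∈ gr 𝒜 ν ω)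
    (hu0 : u0 ≠ 0) {g : R} (hg : g ∈ gr 𝒜 ν γ) (hg0 : g ≠ 0) (D : Derivation ℂ R R)
    (hD : ∀ ψ, ∀ h ∈ gr 𝒜 ν ψ, D h ∈ gr 𝒜 ν (ψ + γ - χ)) (hrad : u0 ∈ (cond g D).radical)
    (hqa : ∀ x ∈ cond g D, q x = 0)
    (hstep : ∀ (k : ℕ) (E : R →ₗ[ℂ] R), (∃ s ∈ gr 𝒜 ν 0, q s ≠ 0 ∧
      ∀ h, s * u0 ^ (k + 1) * D h = g * E h) → (∀ a b, E (a * b) = a * E b + b * E a) →
      (∀ ψ, ∀ h ∈ gr 𝒜 ν ψ, E h ∈ gr 𝒜 ν ((k + 1) • ω + (ψ - χ))) →
      ∃ r, q r = 1 ∧ ∀ h, u0 ∣ r * E h) : False := by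
  have hF := fix_of_isFixed hfix
  have hPex : ∃ k, ∃ s, q s ≠ 0 ∧ s * u0 ^ k ∈ cond g D := by
    obtain ⟨k, hk⟩ := hrad
    exact ⟨k, 1, by simp, by rwa [one_mul]⟩
  classical
  obtain ⟨s1, hs1, hs1'⟩ := Nat.find_spec hPex
  have hmin : ∀ j, j < Nat.find hPex → ¬ ∃ s, q s ≠ 0 ∧ s * u0 ^ j ∈ cond g D :=
    fun j hj => Nat.find_min hPex hj
  generalize hk : Nat.find hPex = k at hs1' hmin
  have hk0 : k ≠ 0 := by
    rintro rfl
    rw [pow_zero, mul_one] at hs1'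
    exact hs1 (hqa _ hs1')
  obtain ⟨k', rfl⟩ := Nat.exists_eq_succ_of_ne_zero hk0
  have hupow : u0 ^ (k' + 1) ∈ gr 𝒜 ν ((k' + 1) • ω) := SetLike.pow_mem_graded _ hu
  -- a homogeneous denominator
  obtain ⟨s, hs0, hsq, hs⟩ : ∃ s ∈ gr 𝒜 ν 0, q s ≠ 0 ∧ s * u0 ^ (k' + 1) ∈ cond g D := by
    refine ⟨cp (gr 𝒜 ν) 0 s1, cp_mem _ _ _, by rw [hF.q_cp]; exact hs1, ?_⟩
    have h2 := cond_homogeneous (𝒜 := gr 𝒜 ν) hg D.toLinearMap
      (fun i h hh => ⟨_, hD i h hh⟩) hs1' ((k' + 1) • ω)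
    have h3 := cp_mul_right (gr 𝒜 ν) hupow s1 ((k' + 1) • ω)
    rw [sub_self] at h3
    rw [← h3]
    exact h2
  have hEex : ∀ h, ∃ e, s * u0 ^ (k' + 1) * D h = g * e := fun h => hs h
  choose E0 hE0 using hEex
  let E : R →ₗ[ℂ] R :=
    { toFun := E0
      map_add' := by
        intro x y
        apply mul_left_cancel₀ hg0
        rw [← hE0, mul_add, ← hE0, ← hE0, map_add, mul_add]
      map_smul' := by
        intro c x
        apply mul_left_cancel₀ hg0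
        rw [← hE0, RingHom.id_apply, mul_smul_comm, ← hE0, D.map_smul, mul_smul_comm] }
  have hE : ∀ h, s * u0 ^ (k' + 1) * D h = g * E h := hE0
  have hEmul : ∀ a b, E (a * b) = a * E b + b * E a := by
    intro x y
    apply mul_left_cancel₀ hg0
    rw [← hE, Derivation.leibniz]
    simp only [smul_eq_mul]
    linear_combination x * hE y + y * hE x
  have hEdeg : ∀ ψ, ∀ h ∈ gr 𝒜 ν ψ, E h ∈ gr 𝒜 ν ((k' + 1) • ω + (ψ - χ)) := by
    intro j h hh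
    apply div_mem hg hg0
    rw [← hE]
    have h2 := SetLike.mul_mem_graded (SetLike.mul_mem_graded hs0 hupow) (hD j h hh)
    have h3 : 0 + (k' + 1) • ω + (j + γ - χ) = γ + ((k' + 1) • ω + (j - χ)) := by
      abel
    rw [h3] at h2
    exact h2
  obtain ⟨r, hr1, hr'⟩ := hstep k' E ⟨s, hs0, hsq, hE⟩ hEmul hEdeg
  apply hmin k' (Nat.lt_succ_self k')
  refine ⟨r * s, by rw [map_mul, hr1, one_mul]; exact hsq, ?_⟩
  rw [mem_cond]
  intro h
  obtain ⟨y, hy⟩ := hr' h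
  refine ⟨y, ?_⟩
  apply mul_left_cancel₀ hu0
  have h1 : u0 * (r * s * u0 ^ k' * D h) = r * (s * u0 ^ (k' + 1) * D h) := by ring
  rw [h1, hE, mul_left_comm, hy]
  ring

/-- divisibility of the values at parameters is enough -/
theorem step_of_params [IsDomain R] [IsNoetherianRing R] (E : R →ₗ[ℂ] R)
    (hE : ∀ a b, E (a * b) = a * E b + b * E a) {n : ℕ} {u : Fin n → R} {s : R}
    (hs : q s = 1) (hsu : ∀ x ∈ mx q, s * x ∈ Ideal.span (Set.range u)) (hu : ∀ i, q (u i) = 0)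
    {u0 : R} (hdiv : ∀ i, ∃ t, q t = 1 ∧ u0 ∣ t * E (u i)) :
    ∃ r, q r = 1 ∧ ∀ h, u0 ∣ r * E h := by
  choose t ht ht' using hdiv
  refine nakayama_step E hE hs hsu hu (t := ∏ i, t i) (u0 := u0)
    (by rw [map_prod]; exact Finset.prod_eq_one (fun i _ => ht i)) ?_
  intro i
  rw [← Finset.mul_prod_erase Finset.univ t (Finset.mem_univ i), mul_comm (t i), mul_assoc]
  exact dvd_mul_of_dvd_right (ht' i) _

/-- elements of negative slope are locally divisible by `u i₀` -/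
theorem One.dvd' (hX : IsTorusManifold 𝒜) {n : ℕ} {u : Fin n → R} {wt : Fin n → M} {i₀ : Fin n}
    (O : One 𝒜 l q ν u wt i₀) {ψ : M} (hψ : l ψ < 0) {b : R}
    (hb : b ∈ gr 𝒜 ν ψ) : ∃ t, q t = 1 ∧ u i₀ ∣ t * b := by
  obtain ⟨t, -, ht, c, -, hc⟩ := O.dvd hX hψ hb
  exact ⟨t, ht, c, by rw [hc, mul_comm]⟩

end Vale.Agent.P280.H63
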