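import Vale.Agent.P280.R2.H63.Limit

/-!
# P280: the negative weight at a fixed point with one negative weight

If `p` is an isolated source of `l` then the opposite of the negative weight is in the group
generated by the tangent weights at `p` which are positive multiples of it.
-/

open DirectSum Vale.Agent.P280.T Vale.Agent.P280.H127

namespace Vale.Agent.P280.H63

variable {M : Type} [AddCommGroup M] [DecidableEq M] {R : Type} [CommRing R] [Algebra ℂ R]
  {𝒜 : ℕ × M → Submodule ℂ R} [GradedAlgebra 𝒜]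

theorem tangentWeight_same {p y : R →ₐ[ℂ] ℂ} {μ χ : M} (h : SamePoint 𝒜 p y)
    (hχ : TangentWeight 𝒜 y μ χ) : TangentWeight 𝒜 p μ χ := by
  obtain ⟨c, hc, hcy⟩ := h
  obtain ⟨v, hv, hw, hne⟩ := hχ
  have hval : ∀ (d : ℕ) (m : M), ∀ h ∈ 𝒜 (d, m),
      (H644.tw 𝒜 fun i => (c⁻¹ ^ i.1) • v) h = c⁻¹ ^ d * v h := by
    intro d m h hh
    rw [H644.tw_mem 𝒜 _ hh]
    rfl
  refine ⟨H644.tw 𝒜 fun i => (c⁻¹ ^ i.1) • v, ?_, ?_, ?_⟩
  · refine H644.isDer_of_hom (𝒜 := 𝒜) ?_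
    rintro ⟨d, m⟩ ⟨d', m'⟩ f hf g hg
    have hfg : f * g ∈ 𝒜 (d + d', m + m') := SetLike.mul_mem_graded hf hg
    rw [hval _ _ _ hfg, hval _ _ _ hf, hval _ _ _ hg, hv f g, hcy d m f hf, hcy d' m' g hg, pow_add]
    have h1 : c⁻¹ ^ d * c ^ d = 1 := by rw [← mul_pow, inv_mul_cancel₀ hc, one_pow]
    have h2 : c⁻¹ ^ d' * c ^ d' = 1 := by rw [← mul_pow, inv_mul_cancel₀ hc, one_pow]
    linear_combination (c⁻¹ ^ d' * p f * v g) * h1 + (c⁻¹ ^ d * p g * v f) * h2
  · intro d m h hh hne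
    rw [hval d m h hh] at hne
    exact hw d m h hh (right_ne_zero_of_mul hne)
  · intro a
    obtain ⟨d, m, h, hh, hne⟩ := hne a
    refine ⟨d, m, h, hh, ?_⟩
    rw [hval d m h hh]
    intro h1
    apply hne
    rw [hcy d m h hh]
    have h2 : c ^ d * c⁻¹ ^ d = 1 := by rw [← mul_pow, mul_inv_cancel₀ hc, one_pow]
    linear_combination (c ^ d) * h1 - v h * h2

variable {l : M →+ ℤ} {p q z y : R →ₐ[ℂ] ℂ} {μ ν ν' : M} {n : ℕ} {u : Fin n → R} {wt : Fin n → M}
  {i₀ : Fin n}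

omit [DecidableEq M] [GradedAlgebra 𝒜] in
theorem Bot.not_vertex (T : Bot 𝒜 l z y ν') : ¬ IsVertex 𝒜 y := by
  intro hv
  obtain ⟨h, hh, hne⟩ := T.one
  apply hne
  rw [← T.eq 1 ν' h hh (by rw [one_smul])]
  exact hv 1 ν' one_pos h hh

theorem Bot.fixed (hX : IsTorusManifold 𝒜) (O : One 𝒜 l q ν u wt i₀) (B : Below 𝒜 l q z ν)
    {κ : ℕ} (T : Bot 𝒜 l z y (ν + κ • wt i₀)) : IsFixed 𝒜 y (ν + κ • wt i₀) := by
  intro d m h hh hne
  by_cases h0 : l m = d • l (ν + κ • wt i₀)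
  · rw [T.eq d m h hh h0] at hne
    obtain ⟨k, hk, -⟩ := O.supp' hX B hh hne
    have hneg := O.neg
    rw [hk, map_add, map_nsmul, map_nsmul, map_add, map_nsmul, smul_add, add_right_inj, smul_smul,
      nsmul_eq_mul, nsmul_eq_mul] at h0
    have h1 := mul_right_cancel₀ hneg.ne h0
    have h2 : k = d * κ := by exact_mod_cast h1
    rw [hk, h2, smul_add, smul_smul]
  · exact absurd (T.zero d m h hh h0) hne

omit [GradedAlgebra 𝒜] in
theorem Bot.eq_gr (T : Bot 𝒜 l z y ν') {ψ : M} (hψ : l ψ = 0) {b : R} (hb : b ∈ gr 𝒜 ν' ψ) :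
    z b = y b := by
  refine gr_ind (P := fun b => z b = y b) (by rw [map_zero, map_zero])
    (fun a b ha hb => by rw [map_add, map_add, ha, hb]) ?_ hb
  intro d m hm h hh
  refine (T.eq d m h hh ?_).symm
  rw [hm, map_add, hψ, map_nsmul, add_zero]

omit [GradedAlgebra 𝒜] in
theorem Bot.zero_gr (T : Bot 𝒜 l z y ν') {ψ : M} (hψ : l ψ < 0) {b : R}
    (hb : b ∈ gr 𝒜 ν' ψ) : z b = 0 := by
  refine gr_ind (P := fun b => z b = 0) (map_zero z)
    (fun a b ha hb => by rw [map_add, ha, hb, add_zero]) ?_ hb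
  intro d m hm h hh
  by_contra hne
  have := T.le d m h hh hne
  rw [hm, map_add, map_nsmul] at this
  linarith

/-- The weights of `z` at the lower end are sums of weights of parameters which do not vanish at
`z`. -/
theorem Bot.supp_closure (T : Bot 𝒜 l z y ν') (hy : IsFixed 𝒜 y ν') {n' : ℕ} {u' : Fin n' → R}
    {wt' : Fin n' → M} (G : Gens (gr 𝒜 ν') y u' wt') (hnn : ∀ i, 0 ≤ l (wt' i)) (N : ℕ) :
    ∀ ψ : M, l ψ ≤ N → ∀ b ∈ gr 𝒜 ν' ψ, z b ≠ 0 →
      ψ ∈ AddSubgroup.closure {χ | ∃ i, χ = wt' i ∧ 0 < l χ ∧ z (u' i) ≠ 0} := by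
  have hF := fix_of_isFixed hy
  have key : ∀ ψ : M, l ψ ≤ 0 → ∀ b ∈ gr 𝒜 ν' ψ, z b ≠ 0 →
      ψ ∈ AddSubgroup.closure {χ | ∃ i, χ = wt' i ∧ 0 < l χ ∧ z (u' i) ≠ 0} := by
    intro ψ hψ b hb hne
    have h0 : l ψ = 0 := by
      by_contra h
      exact hne (T.zero_gr (lt_of_le_of_ne hψ h) hb)
    rw [T.eq_gr h0 hb] at hne
    have h1 : ψ = 0 := by
      by_contra h
      exact hne (hF ψ h b hb)
    rw [h1]
    exact AddSubgroup.zero_mem _
  induction N with
  | zero =>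
    intro ψ hψ b hb hne
    exact key ψ (by simpa using hψ) b hb hne
  | succ N ih =>
    intro ψ hψ b hb hne
    by_cases h0 : l ψ ≤ 0
    · exact key ψ h0 b hb hne
    push Not at h0
    have hψ0 : ψ ≠ 0 := by
      rintro rfl
      rw [map_zero] at h0
      exact lt_irrefl _ h0
    obtain ⟨s, hs0, hs1, hs⟩ := G.gen
    have h1 : s * b ∈ gr 𝒜 ν' ψ := by
      have := SetLike.mul_mem_graded hs0 hb
      rwa [zero_add] at this
    obtain ⟨r, hr, he⟩ := mem_span_hom G.hom (hs b (mem_mx.2 (hF ψ hψ0 b hb))) h1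
    have h2 : z s = 1 := by rw [T.eq_gr (map_zero l) hs0, hs1]
    have h3 : z b = ∑ i, z (r i) * z (u' i) := by
      have := congrArg z he
      rw [map_mul, h2, one_mul, map_sum] at this
      rw [this]
      exact Finset.sum_congr rfl fun i _ => map_mul z _ _
    obtain ⟨i, -, hi⟩ := Finset.exists_ne_zero_of_sum_ne_zero (h3 ▸ hne)
    have h4 := left_ne_zero_of_mul hi
    have h5 := right_ne_zero_of_mul hi
    have h6 : 0 < l (wt' i) := by
      refine lt_of_le_of_ne (hnn i) (fun h => h5 ?_)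
      rw [T.eq_gr h.symm (G.hom i)]
      exact G.zero i
    have h7 := ih (ψ - wt' i) (by
      rw [map_sub]
      push_cast at hψ
      linarith) (r i) (hr i) h4
    rw [← sub_add_cancel ψ (wt' i)]
    exact AddSubgroup.add_mem _ h7 (AddSubgroup.subset_closure ⟨i, rfl, h6, h5⟩)

/-- The opposite of the negative weight is in the group generated by the tangent weights at the
source which are positive multiples of it. -/
theorem One.mem_closure (hX : IsTorusManifold 𝒜) (hN : NefOnRationalCurves 𝒜) {a : ℤ}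
    (hs : IsSource 𝒜 l p μ a) (hq : ¬ IsVertex 𝒜 q) (O : One 𝒜 l q ν u wt i₀) :
    -wt i₀ ∈ AddSubgroup.closure
      {χ | TangentWeight 𝒜 p μ χ ∧ ∃ j : ℕ, 0 < j ∧ χ = j • (-wt i₀)} := by
  have hneg := O.neg
  -- a point of the cell
  obtain ⟨ξ, hξ, hξw, hξu, -⟩ := exists_weight_vector hX (fix_of_isFixed O.fix) O.gens O.ht i₀
  obtain ⟨z, hz, hz1, hz2, -, -⟩ := incoming_w hX hq (w := l) (γ := l ν)
    (fun d m h hh hne => by rw [O.fix d m h hh hne, map_nsmul]) (k := l (wt i₀)) hξ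
    (fun d m h hh hne => by
      have := hξw d m h hh hne
      rw [AddMonoidHom.id_apply] at this
      rw [this, map_add, map_nsmul])
    (by
      rintro rfl
      have := hξu i₀
      rw [if_pos rfl, LinearMap.zero_apply] at this
      exact zero_ne_one this) hneg
  have B : Below 𝒜 l q z ν := ⟨hz1, hz2⟩
  obtain ⟨κ, hκ, hκ1, hκ2⟩ := O.exists_max hX B hz
  obtain ⟨y, T⟩ := exists_bot hκ2 hκ1
  have hyv := T.not_vertex
  have hyf := T.fixed hX O B
  -- the other end is the source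
  have hsame : SamePoint 𝒜 p y := by
    by_contra hcon
    obtain ⟨χ, ⟨v, hv, hvw, hne⟩, hχ⟩ := H587.exists_neg_of_source hX hs hyv hyf hcon
    have := O.no_neg hX hN hq B hz T hχ hv hvw
    obtain ⟨d, m, h, -, h1⟩ := hne 0
    rw [this] at h1
    simp at h1
  have hμ : ν + κ • wt i₀ = μ := by
    obtain ⟨f, hf, hpf⟩ := exists_deg_one_ne hX.gen hs.1 hs.2.1
    obtain ⟨c, hc, hcy⟩ := hsame
    have h1 : y f ≠ 0 := by
      rw [hcy 1 μ f hf]
      exact mul_ne_zero (pow_ne_zero _ hc) hpf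
    have h2 := hyf 1 μ f hf h1
    rw [one_smul] at h2
    exact h2.symm
  rw [hμ] at hyf T
  -- parameters at the source
  have hyF := fix_of_isFixed hyf
  obtain ⟨n', u', wt', G, hn'⟩ := exists_params_T hX hyv hyF
  have hpos : ∀ i, wt' i ≠ 0 → TangentWeight 𝒜 p μ (wt' i) ∧ 0 < l (wt' i) := by
    intro i hi
    have h1 := tangentWeight_same hsame (tangentWeight_of_wt hX hyf G hn' hi)
    exact ⟨h1, (hs.2.2 _ h1).1⟩
  have hnn : ∀ i, 0 ≤ l (wt' i) := by
    intro i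
    by_cases hi : wt' i = 0
    · rw [hi, map_zero]
    · exact (hpos i hi).2.le
  -- weights at the source of the elements which do not vanish at `z`
  have hrel : ∀ (d : ℕ) (m : M), ∀ h ∈ 𝒜 (d, m), z h ≠ 0 →
      ∃ j : ℤ, m - d • μ = j • (-wt i₀) := by
    intro d m h hh hne
    obtain ⟨k, hk, -⟩ := O.supp' hX B hh hne
    refine ⟨d * κ - k, ?_⟩
    rw [hk, ← hμ]
    module
  have hS : {χ | ∃ i, χ = wt' i ∧ 0 < l χ ∧ z (u' i) ≠ 0} ⊆
      {χ | TangentWeight 𝒜 p μ χ ∧ ∃ j : ℕ, 0 < j ∧ χ = j • (-wt i₀)} := by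
    rintro χ ⟨i, rfl, hi, hzi⟩
    have hi0 : wt' i ≠ 0 := by
      intro h
      rw [h, map_zero] at hi
      exact lt_irrefl _ hi
    refine ⟨(hpos i hi0).1, ?_⟩
    have hex : ∃ (d : ℕ) (m : M), m = d • μ + wt' i ∧ ∃ h ∈ 𝒜 (d, m), z h ≠ 0 := by
      by_contra hcon
      push Not at hcon
      apply hzi
      refine gr_ind (P := fun b => z b = 0) (map_zero z)
        (fun a b ha hb => by rw [map_add, ha, hb, add_zero]) ?_ (G.hom i)
      intro d m hm h hh
      exact hcon d m hm h hh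
    obtain ⟨d, m, hm, h, hh, hne⟩ := hex
    obtain ⟨j, hj⟩ := hrel d m h hh hne
    rw [hm, add_sub_cancel_left] at hj
    have h1 : 0 < j := by
      have h2 := congrArg l hj
      rw [map_zsmul, map_neg, smul_eq_mul] at h2
      by_contra h3
      nlinarith
    obtain ⟨j', rfl⟩ := Int.eq_ofNat_of_zero_le h1.le
    refine ⟨j', by exact_mod_cast h1, ?_⟩
    rw [hj]
    exact natCast_zsmul _ _
  refine AddSubgroup.closure_mono hS ?_
  have hcl : ∀ (d : ℕ) (m : M), ∀ h ∈ 𝒜 (d, m), z h ≠ 0 → m - d • μ ∈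
      AddSubgroup.closure {χ | ∃ i, χ = wt' i ∧ 0 < l χ ∧ z (u' i) ≠ 0} := by
    intro d m h hh hne
    exact T.supp_closure hyf G hnn (l (m - d • μ)).toNat (m - d • μ) (Int.self_le_toNat _) h
      (mem_gr hh) hne
  -- the two elements
  have hzu := (O.off hX B hz).1
  have hex : ∃ (d : ℕ) (m : M), m = d • ν + wt i₀ ∧ ∃ h ∈ 𝒜 (d, m), z h ≠ 0 := by
    by_contra hcon
    push Not at hcon
    apply hzu
    refine gr_ind (P := fun b => z b = 0) (map_zero z)
      (fun a b ha hb => by rw [map_add, ha, hb, add_zero]) ?_ (O.gens.hom i₀)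
    intro d m hm h hh
    exact hcon d m hm h hh
  obtain ⟨d, m, hm, h, hh, hne⟩ := hex
  obtain ⟨f, hf, hqf⟩ := exists_deg_one_ne hX.gen hq O.fix
  have hzf : z f ≠ 0 := by
    rw [B.eq 1 ν f hf (by rw [one_smul])]
    exact hqf
  have h1 := hcl d m h hh hne
  have h2 := hcl 1 ν f hf hzf
  have h3 : -wt i₀ = d • (ν - 1 • μ) - (m - d • μ) := by
    rw [hm, one_smul, smul_sub]
    abel
  rw [h3]
  exact AddSubgroup.sub_mem _ (AddSubgroup.nsmul_mem _ h2 d) h1

/-- If no two tangent weights at the source are proportional then the opposite of the negative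
weight is a tangent weight at the source. -/
theorem One.tangentWeight (hX : IsTorusManifold 𝒜) (hN : NefOnRationalCurves 𝒜) {a : ℤ}
    (hs : IsSource 𝒜 l p μ a) (hq : ¬ IsVertex 𝒜 q) (O : One 𝒜 l q ν u wt i₀)
    (hnp : ∀ χ χ' : M, TangentWeight 𝒜 p μ χ → TangentWeight 𝒜 p μ χ' →
      (∃ j k : ℕ, 0 < j ∧ 0 < k ∧ j • χ = k • χ') → χ = χ') :
    TangentWeight 𝒜 p μ (-wt i₀) := by
  have hneg := O.neg
  have h1 := O.mem_closure hX hN hs hq
  by_cases hex : ∃ χ, TangentWeight 𝒜 p μ χ ∧ ∃ j : ℕ, 0 < j ∧ χ = j • (-wt i₀)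
  · obtain ⟨χ, hχ, j, hj, hjχ⟩ := hex
    have h2 : {χ | TangentWeight 𝒜 p μ χ ∧ ∃ j : ℕ, 0 < j ∧ χ = j • (-wt i₀)} ⊆
        (AddSubgroup.zmultiples χ : Set M) := by
      rintro χ' ⟨hχ', j', hj', hjχ'⟩
      rw [hnp χ' χ hχ' hχ ⟨j, j', hj, hj', by rw [hjχ, hjχ', smul_smul, smul_smul, mul_comm]⟩]
      exact AddSubgroup.mem_zmultiples χ
    obtain ⟨k, hk⟩ := AddSubgroup.mem_zmultiples_iff.1 ((AddSubgroup.closure_le _).2 h2 h1)
    have h3 := congrArg l hk
    rw [hjχ, map_zsmul, map_nsmul, nsmul_eq_mul, smul_eq_mul, ← mul_assoc] at h3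
    have h4 : k * (j : ℤ) = 1 := by
      have h5 : l (-wt i₀) ≠ 0 := by
        rw [map_neg]
        linarith
      exact mul_right_cancel₀ h5 (by rw [h3, one_mul])
    have h5 : (j : ℤ) = 1 := by
      have h6 : (j : ℤ) ∣ 1 := ⟨k, by rw [mul_comm, h4]⟩
      exact Int.eq_one_of_dvd_one (by positivity) h6
    have h6 : j = 1 := by exact_mod_cast h5
    rw [h6, one_smul] at hjχ
    rw [← hjχ]
    exact hχ
  · exfalso
    have h2 : {χ | TangentWeight 𝒜 p μ χ ∧ ∃ j : ℕ, 0 < j ∧ χ = j • (-wt i₀)} = ∅ := by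
      rw [Set.eq_empty_iff_forall_notMem]
      intro χ hχ
      exact hex ⟨χ, hχ⟩
    rw [h2, AddSubgroup.closure_empty, AddSubgroup.mem_bot] at h1
    have h3 := congrArg l h1
    rw [map_neg, map_zero] at h3
    linarith

end Vale.Agent.P280.H63
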